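import Vale.Agent.P287Q.Pcs.Desc
import Vale.Agent.P287Q.Alg.HerL

/-! The algebra of two point operators is commutative and semisimple; its pieces. -/

namespace Vale.Agent.P287Q.Pcs

open Lz Module Alg
open Multiset hiding map_add map_zero

section jnt

variable {k 𝒜 : Type*} [Field k] [Ring 𝒜] [Algebra k 𝒜] {I Γ : Type*} [Fintype Γ] {A : I → 𝒜}
  {π : Γ → 𝒜} {χ : Γ → I → k}

theorem com_mem (h : Jnt A π χ) (g : Γ) : π g ∈ Algebra.adjoin k (Set.range A) := by
  classical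
  have k1 : ∀ s : Finset Γ, g ∉ s → ∃ a ∈ Algebra.adjoin k (Set.range A), a * π g = π g ∧
      ∀ g' ∈ s, a * π g' = 0 := by
    intro s
    induction s using Finset.induction_on with
    | empty => exact fun _ => ⟨1, one_mem _, one_mul _, by simp⟩
    | insert b s _ ih =>
      intro hg
      obtain ⟨a, h1, h2, h3⟩ := ih fun c => hg (Finset.mem_insert_of_mem c)
      obtain ⟨i, hi⟩ := Function.ne_iff.1 (h.inj.ne fun c : g = b =>
        hg (c ▸ Finset.mem_insert_self _ _))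
      have e : ∀ x, (χ g i - χ b i)⁻¹ • (a * (A i - χ b i • 1)) * π x =
          ((χ g i - χ b i)⁻¹ * (χ x i - χ b i)) • (a * π x) := fun x => by
        rw [smul_mul_assoc, mul_assoc, sub_mul, h.left, smul_mul_assoc, one_mul, ← sub_smul,
          mul_smul_comm, smul_smul]
      refine ⟨_, Subalgebra.smul_mem _ (mul_mem h1 (sub_mem (Algebra.subset_adjoin ⟨i, rfl⟩)
        (Subalgebra.smul_mem _ (one_mem _) (χ b i)))) (χ g i - χ b i)⁻¹, ?_,
        Finset.forall_mem_insert _ _ _ |>.2 ⟨?_, fun x hx => ?_⟩⟩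
      · rw [e, inv_mul_cancel₀ (sub_ne_zero.2 hi), one_smul, h2]
      · rw [e, sub_self, mul_zero, zero_smul]
      · rw [e, h3 x hx, smul_zero]
  obtain ⟨a, h1, h2, h3⟩ := k1 (Finset.univ.erase g) (Finset.notMem_erase _ _)
  rwa [← mul_one a, ← h.coi.complete, Finset.mul_sum, Finset.sum_eq_single g
    (fun b _ c => h3 b (by simp [c])) (by simp), h2] at h1

/-- The characters of the algebra generated by a family with joint eigen-projectors. -/
theorem com_chr (h : Jnt A π χ) {B : Subalgebra k 𝒜} (hB : B = Algebra.adjoin k (Set.range A)) :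
    ∃ c : Γ → B →ₐ[k] k, (∀ g (a : B), a.1 * π g = c g a • π g ∧ π g * a.1 = c g a • π g) ∧
      Function.Injective c ∧ finrank k B = Fintype.card Γ := by
  classical
  subst hB
  choose c hc using fun a : Algebra.adjoin k (Set.range A) => h.adjoin a.2
  have u : ∀ g {x y : k}, x • π g = y • π g → x = y := fun g _ _ e =>
    smul_left_injective k (h.ne g) e
  let C : Γ → Algebra.adjoin k (Set.range A) →ₐ[k] k := fun g =>
    { toFun := fun a => c a g
      map_one' := u g (by rw [← (hc 1 g).1, one_smul]; exact one_mul _)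
      map_mul' := fun a b => u g (by
        rw [← (hc _ g).1, Subalgebra.coe_mul, mul_assoc, (hc b g).1, mul_smul_comm, (hc a g).1,
          smul_smul, mul_comm])
      map_zero' := u g (by rw [← (hc 0 g).1, zero_smul]; exact zero_mul _)
      map_add' := fun a b => u g (by
        rw [← (hc _ g).1, Subalgebra.coe_add, add_mul, (hc b g).1, (hc a g).1, add_smul])
      commutes' := fun x => u g (by
        rw [← (hc _ g).1, Subalgebra.coe_algebraMap, ← Algebra.smul_def]; rfl) }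
  have e : ∀ g g', c ⟨_, com_mem h g'⟩ g = if g' = g then 1 else 0 := fun g g' => u g (by
    rw [← (hc _ g).1, h.coi.mul_eq]
    split_ifs with a
    exacts [a ▸ (one_smul _ _).symm, (zero_smul _ _).symm])
  refine ⟨C, fun g a => hc a g, fun g g' a => by_contra fun b => ?_, ?_⟩
  · have := (e g g).symm.trans ((DFunLike.congr_fun a _).trans (e g' g))
    simp [b] at this
  · rw [← Module.finrank_fintype_fun_eq_card k]
    refine LinearEquiv.finrank_eq (.ofBijective (LinearMap.pi fun g => (C g).toLinearMap)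
      ⟨(injective_iff_map_eq_zero _).2 fun a b => Subtype.ext ?_, fun x =>
        ⟨∑ g, x g • ⟨_, com_mem h g⟩, funext fun g => ?_⟩⟩)
    · rw [← mul_one a.1, ← h.coi.complete, Finset.mul_sum]
      exact Finset.sum_eq_zero fun g _ => by
        rw [(hc a g).1, show c a g = 0 from congrFun b g, zero_smul]
    · change (C g).toLinearMap _ = _
      rw [map_sum]
      simp only [map_smul]
      refine (Finset.sum_congr rfl fun g' _ => congrArg _ (e g g')).trans ?_
      simp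

end jnt

/-- The joint eigen-projectors of self-adjoint operators are self-adjoint. -/
theorem com_adj {k V I Γ : Type*} [Field k] [AddCommGroup V] [Module k V] [Fintype Γ] {s : k →+* k}
    (b : V →ₛₗ[s] V →ₗ[k] k) (hb : ∀ v, b v v = 0 → v = 0) {A : I → End k V} {π : Γ → End k V}
    {χ : Γ → I → k} (h : Jnt A π χ) (hA : ∀ i v w, b (A i v) w = b v (A i w)) (g v w) :
    b (π g v) w = b v (π g w) := by
  have e : ∀ g g' i v w, s (χ g i) * b (π g v) (π g' w) = χ g' i * b (π g v) (π g' w) :=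
    fun g g' i v w => by
      have := hA i (π g v) (π g' w)
      rwa [← End.mul_apply, ← End.mul_apply, h.left, h.left, LinearMap.smul_apply,
        LinearMap.smul_apply, b.map_smulₛₗ, LinearMap.smul_apply, map_smul] at this
  have o : ∀ g g' v w, g ≠ g' → b (π g v) (π g' w) = 0 := fun g g' v w a => by
    obtain ⟨i, hi⟩ := Function.ne_iff.1 (h.inj.ne a)
    by_contra c
    refine hi ((mul_right_cancel₀ (fun z => c ?_) (e g g i v v)).symm.trans
      (mul_right_cancel₀ c (e g g' i v w)))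
    rw [hb _ z, map_zero, LinearMap.zero_apply]
  have c : ∀ v, v = ∑ g, π g v := fun v => by
    rw [← LinearMap.sum_apply, h.coi.complete, End.one_apply]
  conv_lhs => rw [c w, map_sum]
  conv_rhs => rw [c v, map_sum, LinearMap.sum_apply]
  rw [Finset.sum_eq_single g (fun x _ a => o _ _ _ _ a.symm) (by simp),
    Finset.sum_eq_single g (fun x _ a => o _ _ _ _ a) (by simp)]

variable {H R V : Type} [CommRing H] [Algebra ℂ H] [Fintype R] [DecidableEq R] [AddCommGroup V]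
  [Module ℂ V]

namespace Gw

variable {G : Gw H R} {ι : V →ₗ[ℂ] H}

theorem map_cj {t : Ms H} (hr : ∀ z ∈ t, G.cj z.2 = z.2) : t.map (Prod.map id G.cj) = t :=
  (Multiset.map_congr rfl fun z hz => show (z.1, G.cj z.2) = z by rw [hr z hz]).trans (map_id' t)

/-- The primary operators lie in the span of those with insertions from a spanning family. -/
theorem Fr.pops_le (h : G.Fr ι) {κ : Type} (φ : κ → H)
    (hφ : G.Tp ≤ Submodule.span ℂ (Set.range φ)) {S : Set (R →₀ ℕ)} (W : Submodule ℂ (End ℂ V))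
    (hW : ∀ d ∈ S, ∀ μ : Multiset κ, G.op ι d 0 0 (μ.map fun a => (0, φ a)) ∈ W) :
    ∀ A ∈ G.pops ι S, A ∈ W := by
  rintro _ ⟨d, a, t, b, c, e⟩
  rw [h.eq_op b e]
  refine bas_ind W _ t (fun z hz => hφ (b z hz)) _ (G.op_lin ι d 0 0) fun t' h1 h2 => ?_
  obtain ⟨u, rfl, h3⟩ := bas_lift (fun (a : κ) (z : ℕ × H) => (0, φ a) = z) t' fun z hz => by
    obtain ⟨w, a, b⟩ := mem_map.1 (h2 ▸ mem_map_of_mem Prod.fst hz)
    obtain ⟨x, e⟩ := h1 z hz
    exact ⟨x, Prod.ext ((c w a).symm.trans b) e⟩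
  rw [← map_congr rfl h3]
  exact map_map (fun a => (0, φ a)) Prod.fst u ▸ hW d a _

/-- WDVV for the operators. -/
theorem Fr.op_wdvv (h : G.Fr ι) (d) {x y : ℕ × H} (hx : x.2 ∈ G.Tp) (hy : y.2 ∈ G.Tp) {t : Ms H}
    (ht : G.PP t) :
    cv (fun d₁ t₁ d₂ t₂ => G.op ι d₁ 0 0 (x ::ₘ t₁) * G.op ι d₂ 0 0 (y ::ₘ t₂)) d t =
      cv (fun d₁ t₁ d₂ t₂ => G.op ι d₁ 0 0 (y ::ₘ t₁) * G.op ι d₂ 0 0 (x ::ₘ t₂)) d t := by
  refine h.ext fun v w _ => ?_
  have a := h.η_cv 0 0 (G.pp_zero.cons x.1 hx) (G.pp_zero.cons y.1 hy) ht d v w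
  have b := h.η_cv 0 0 (G.pp_zero.cons y.1 hy) (G.pp_zero.cons x.1 hx) ht d v w
  simp only [cons_add, Multiset.zero_add] at a b
  rw [← cv_swap, b, ← cv_swap, a, cons_swap (0, ι v), cons_swap (0, ι v)]
  exact G.wdvv d _ _ _ _ t

variable (G ι) in
/-- The Hermitian form. -/
noncomputable def frm : V →ₛₗ[starRingEnd ℂ] V →ₗ[ℂ] ℂ :=
  (((LinearMap.mul ℂ H).compr₂ G.η).flip.comp ι).flip.comp (G.cj.comp ι)

theorem frm_apply (v w : V) : G.frm ι v w = G.η (G.cj (ι v) * ι w) := rfl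

theorem Fr.op_adj (h : G.Fr ι) (d) {t : Ms H} (ht : G.PP t) (hr : ∀ z ∈ t, G.cj z.2 = z.2) (v w) :
    G.frm ι (G.op ι d 0 0 t v) w = G.frm ι v (G.op ι d 0 0 t w) := by
  rw [frm_apply, frm_apply, mul_comm (G.cj (ι v)), h.η_op d 0 0 ht, ← G.cj_cj (ι w), ← G.cj_mul,
    G.cjη, h.η_op d 0 0 ht, ← G.real, map_cons, map_cons, cons_swap, map_cj hr]
  rfl

/-- **The pieces.** -/
theorem Fr.com (h : G.Fr ι) : (∀ A ∈ G.alg ι Set.univ, ∀ B ∈ G.alg ι Set.univ, Commute A B) ∧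
    ∃ (m : ℕ) (π : Fin m → End ℂ V) (χ : _), G.Pieces ι π χ := by
  have := h.fin
  let X := {x : ℤ × H // x.2 ∈ G.T x.1 x.1 ∧ G.cj x.2 = x.2}
  let f : X → ℕ × H := fun x => (0, x.1.2)
  have p : ∀ t : Multiset X, G.PP (t.map f) := fun t =>
    forall_mem_map_iff.2 fun x _ => G.mem_Tp x.2.1
  have q : ∀ t : Multiset X, Prim (t.map f) := fun t => forall_mem_map_iff.2 fun x _ => rfl
  have r : ∀ t : Multiset X, ∀ z ∈ t.map f, G.cj z.2 = z.2 := fun t =>
    forall_mem_map_iff.2 fun x _ => x.2.2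
  have hb : ∀ v, G.frm ι v v = 0 → v = 0 := fun v a =>
    h.inj ((G.hr _ (h.mem v) (mul_comm (ι v) _ ▸ a)).trans (map_zero ι).symm)
  have ha := fun d t => h.op_adj d (p t) (r t)
  obtain ⟨-, m, π, χ, j⟩ := herL_jnt (G.frm ι) hb (fun d t => G.op ι d 0 0 (t.map f)) ha
    (fun r => ⟨(1, (2⁻¹ : ℂ) • (G.L r + G.cj (G.L r))),
      Submodule.smul_mem _ _ (add_mem (G.LT r) (G.cjT _ _ _ (G.LT r))), by
        simp [G.cj_cj, add_comm, map_ofNat]⟩) (fun r => G.c r) (fun x => 1 - x.1.1)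
    (fun x y d t => by
      simpa only [cv_map, map_cons] using
        h.op_wdvv d (x := f x) (y := f y) (G.mem_Tp x.2.1) (G.mem_Tp y.2.1) (p t))
    (fun s d t => by
      have a := h.op_div s d 0 0 (p t) (q t) (.inr (.inr ⟨rfl, rfl⟩))
      have b : G.op ι d 0 0 ((0, G.cj (G.L s)) ::ₘ t.map f) = (d s : ℂ) • G.op ι d 0 0 (t.map f) := by
        refine h.ext fun v y hy => ?_
        obtain ⟨w, hw⟩ : G.cj y ∈ LinearMap.range ι := h.rng ▸ G.cjT _ _ _ hy
        have c := congrArg (fun A : End ℂ V => starRingEnd ℂ (G.η (ι (A w) * G.cj (ι v)))) a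
        simp only [LinearMap.smul_apply, map_smul, smul_mul_assoc, smul_eq_mul, map_mul,
          map_natCast] at c ⊢
        rw [h.η_op d 0 0 ((p t).cons 0 (G.mem_Tp (G.LT s))), h.η_op d 0 0 (p t), ← G.real,
          ← G.real] at c
        rw [h.η_op d 0 0 ((p t).cons 0 (G.mem_Tp (G.cjT _ _ _ (G.LT s)))), h.η_op d 0 0 (p t),
          cons_swap (0, ι v) (0, y), cons_swap (0, ι v) (0, y)]
        simpa only [map_cons, map_cj (r t), Prod.map_apply, id, hw, G.cj_cj] using c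
      rw [map_cons, (G.op_lin ι d 0 0 0 _).map_smul, (G.op_lin ι d 0 0 0 _).map_add, a, b]
      module)
    (fun d t a => by
      obtain ⟨v, y, hy, b⟩ : ∃ v, ∃ y ∈ G.T 1 3, G.η (ι (G.op ι d 0 0 (t.map f) v) * y) ≠ 0 := by
        by_contra! b
        exact a (h.ext fun v y c => by simpa using b v y c)
      rw [h.η_op d 0 0 (p t)] at b
      have c := G.dim d (((3, 1), 0, ι v) ::ₘ ((1, 3), 0, y) ::ₘ t.map fun x => ((x.1.1, x.1.1), f x))
        (forall_mem_cons.2 ⟨h.mem v, forall_mem_cons.2 ⟨hy, forall_mem_map_iff.2 fun x _ => x.2.1⟩⟩)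
        (by simpa using b)
      have e : (t.map fun x : X => 2 * ((f x).1 : ℤ) + x.1.1 + x.1.1 - 2).sum =
          -2 * (t.map fun x : X => 1 - x.1.1).sum := by
        rw [← sum_map_mul_left]
        exact congrArg _ (map_congr rfl fun x _ => by simp only [f]; omega)
      simp only [map_cons, sum_cons, map_map, Function.comp_def, e] at c
      have e' : ∑ r, G.c r * d r + (t.map fun x : X => 1 - x.1.1).sum = 1 := by omega
      rw [Finsupp.sum_fintype _ _ (by simp)]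
      have := congrArg (Int.cast : ℤ → ℂ) e'
      push_cast [map_map, Function.comp_def] at this
      exact this)
  have e : G.alg ι Set.univ = Algebra.adjoin ℂ (Set.range fun p : (R →₀ ℕ) × Multiset X =>
      G.op ι p.1 0 0 (p.2.map f)) := le_antisymm (Algebra.adjoin_le (h.pops_le
        (fun x : X => x.1.2) (G.Tp_real.trans (Submodule.span_mono fun x ⟨p, a⟩ =>
          ⟨⟨(p, x), a⟩, rfl⟩)) (Subalgebra.toSubmodule (Algebra.adjoin ℂ _)) fun d _ μ =>
            Algebra.subset_adjoin (Set.mem_range_self (d, μ))))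
      (Algebra.adjoin_le (Set.range_subset_iff.2 fun x => h.op_mem (Set.mem_univ _) (p _) (q _)))
  obtain ⟨c, h1, h2, h3⟩ := com_chr j e
  refine ⟨fun A a B b => ?_, m, π, c, j.coi, j.ne, fun g => e ▸ com_mem j g, h2,
    fun g A => (h1 g A).1, fun g A => (h1 g A).2, h3.trans (Fintype.card_fin m), fun g x y => ?_⟩
  · rw [← mul_one A, ← j.coi.complete, Finset.mul_sum]
    refine Commute.sum_left _ _ _ fun g _ => ?_
    rw [(h1 g ⟨A, a⟩).1]
    exact Commute.smul_left ((h1 g ⟨B, b⟩).2.trans (h1 g ⟨B, b⟩).1.symm) _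
  · rw [mul_comm, mul_comm (ι x)]
    exact (com_adj _ hb j (fun i => ha i.1 i.2) g y x).symm

theorem Fr.comm (h : G.Fr ι) {A B : End ℂ V} (a : A ∈ G.alg ι Set.univ) (b : B ∈ G.alg ι Set.univ) :
    Commute A B := h.com.1 A a B b

theorem Fr.exists_pieces (h : G.Fr ι) : ∃ (m : ℕ) (π : Fin m → End ℂ V) (χ : _), G.Pieces ι π χ :=
  h.com.2

variable {m : ℕ} {π : Fin m → End ℂ V} {χ : Fin m → G.alg ι Set.univ →ₐ[ℂ] ℂ}

/-- The operator as an element of the algebra. -/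
noncomputable def Fr.opA (h : G.Fr ι) (d : R →₀ ℕ) (i j : ℕ) {t : Ms H} (ht : G.PP t) :
    G.alg ι Set.univ := ⟨G.op ι d i j t, h.desc' isLowerSet_univ trivial i j ht⟩

theorem pp_map {κ : Type} {φ : κ → H} (hφ : ∀ a, φ a ∈ G.Tp) (μ : Multiset κ) :
    G.PP (μ.map fun a => (0, φ a)) := forall_mem_map_iff.2 fun x _ => hφ x

/-- Characters that agree on the generators of degree in `S` agree on `alg S`. -/
theorem Fr.chr_eq (h : G.Fr ι) {κ : Type} {φ : κ → H} (hφ : ∀ a, φ a ∈ G.Tp)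
    (hφ' : G.Tp ≤ Submodule.span ℂ (Set.range φ)) {c c' : G.alg ι Set.univ →ₐ[ℂ] ℂ}
    {S : Set (R →₀ ℕ)}
    (e : ∀ d ∈ S, ∀ μ, c (h.opA d 0 0 (pp_map hφ μ)) = c' (h.opA d 0 0 (pp_map hφ μ)))
    (A : G.alg ι Set.univ) (a : A.1 ∈ G.alg ι S) : c A = c' A := by
  obtain ⟨B, b, k⟩ := (Algebra.adjoin_le (S := (AlgHom.equalizer c c').map (Subalgebra.val _))
    (h.pops_le φ hφ' (Subalgebra.toSubmodule ((AlgHom.equalizer c c').map (Subalgebra.val _)))
      fun d b μ => Subalgebra.mem_map.2 ⟨_, e d b μ, rfl⟩)) a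
  exact (Subtype.ext k : B = A) ▸ b

/-- **Separation of two characters in a minimal degree**, for any well-founded order on the
degrees. -/
theorem Fr.sep_of (h : G.Fr ι) {κ : Type} {φ : κ → H} (hφ : ∀ a, φ a ∈ G.Tp)
    (hφ' : G.Tp ≤ Submodule.span ℂ (Set.range φ)) {c c' : G.alg ι Set.univ →ₐ[ℂ] ℂ} (hc : c ≠ c')
    {r : (R →₀ ℕ) → (R →₀ ℕ) → Prop} (hr : WellFounded r) :
    ∃ d, d ≠ 0 ∧ (∃ μ, c (h.opA d 0 0 (pp_map hφ μ)) ≠ c' (h.opA d 0 0 (pp_map hφ μ))) ∧
      ∀ A : G.alg ι Set.univ, A.1 ∈ G.alg ι {d' | r d' d} → c A = c' A := by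
  obtain ⟨d, ⟨μ, a⟩, b⟩ := hr.has_min
    {d | ∃ μ, c (h.opA d 0 0 (pp_map hφ μ)) ≠ c' (h.opA d 0 0 (pp_map hφ μ))} (by
      by_contra b
      refine hc (AlgHom.ext fun A => h.chr_eq hφ hφ' (fun d _ μ => ?_) A A.2)
      by_contra e
      exact b ⟨d, μ, e⟩)
  refine ⟨d, ?_, ⟨μ, a⟩, h.chr_eq hφ hφ' fun d' e μ => by_contra fun k => b d' ⟨μ, k⟩ e⟩
  rintro rfl
  obtain ⟨z, e⟩ := h.zero 0 0 (pp_map hφ μ)
  rw [show h.opA 0 0 0 (pp_map hφ μ) = z • 1 from Subtype.ext e, map_smul, map_smul, map_one,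
    map_one] at a
  exact a rfl

/-- The same for the product order: no operator of smaller degree separates. -/
theorem Fr.sep (h : G.Fr ι) {κ : Type} {φ : κ → H} (hφ : ∀ a, φ a ∈ G.Tp)
    (hφ' : G.Tp ≤ Submodule.span ℂ (Set.range φ)) {c c' : G.alg ι Set.univ →ₐ[ℂ] ℂ} (hc : c ≠ c') :
    ∃ d, d ≠ 0 ∧ (∃ μ, c (h.opA d 0 0 (pp_map hφ μ)) ≠ c' (h.opA d 0 0 (pp_map hφ μ))) ∧
      (∀ A : G.alg ι Set.univ, A.1 ∈ G.alg ι (Set.Iio d) → c A = c' A) ∧
      ∀ d' < d, ∀ i j t (ht : G.PP t), c (h.opA d' i j ht) = c' (h.opA d' i j ht) :=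
  let ⟨d, a, b, e⟩ := h.sep_of hφ hφ' hc wellFounded_lt
  ⟨d, a, b, e, fun _ k i j _ ht => e _ (h.desc' (isLowerSet_Iio d) k i j ht)⟩

end Gw

end Vale.Agent.P287Q.Pcs
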