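import Vale.Agent.P287Q.Pcs.Bas

/-! The descendant two point operators lie in the algebra of the primary ones. -/

namespace Vale.Agent.P287Q.Pcs

open Lz Module
open Multiset hiding map_add map_zero

variable {H R V : Type} [CommRing H] [Algebra ℂ H] [Fintype R] [DecidableEq R] [AddCommGroup V]
  [Module ℂ V]

namespace Gw

variable {G : Gw H R} {ι : V →ₗ[ℂ] H}

theorem L_mul (r : R) {x : H} (h : x ∈ G.T 3 1) : G.L r * x = 0 :=
  (Submodule.mem_bot ℂ).1 (G.t42 ▸ G.mul _ _ _ _ _ (G.LT r) x h)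

theorem L_mul' (r : R) {x : H} (h : x ∈ G.T 1 3) : G.L r * x = 0 :=
  (Submodule.mem_bot ℂ).1 (G.bot_cj G.t42 ▸ G.mul _ _ _ _ _ (G.LT r) x h)

theorem Fr.op_zero (h : G.Fr ι) (i j : ℕ) : G.op ι 0 i j 0 = 0 :=
  h.ext fun v y _ => by
    rw [h.η_op 0 i j G.pp_zero, G.unst _ (by simp)]
    simp

theorem Fr.ι_mul (h : G.Fr ι) {z : H} (hz : z ∈ G.Tp) (v : V) :
    ι (G.op ι 0 0 0 {(0, z)} v) = z * ι v :=
  sub_eq_zero.1 (G.nondeg fun y => by
    rw [sub_mul, map_sub, ← cons_zero, h.η_op 0 0 0 (G.pp_zero.cons 0 hz), mul_comm z,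
      mul_right_comm]
    exact sub_eq_zero.2 (G.three _ _ _))

/-- The divisor equation for the operators. -/
theorem Fr.op_div (h : G.Fr ι) (r : R) (d : R →₀ ℕ) (i j : ℕ) {t : Ms H} (ht : G.PP t)
    (hp : Prim t) (hd : d ≠ 0 ∨ t ≠ 0 ∨ i = 0 ∧ j = 0) :
    G.op ι d i j ((0, G.L r) ::ₘ t) = (d r : ℂ) • G.op ι d i j t := by
  by_cases a : d ≠ 0 ∨ t ≠ 0
  · refine h.ext fun v y hy => ?_
    rw [h.η_op d i j (ht.cons 0 (G.mem_Tp (G.LT r))), LinearMap.smul_apply, map_smul,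
      smul_mul_assoc, map_smul, h.η_op d i j ht, cons_swap _ (0, G.L r), cons_swap _ (0, G.L r)]
    refine G.div r d _ (forall_mem_cons.2 ⟨.inr (L_mul r (h.mem v)), forall_mem_cons.2
      ⟨.inr (L_mul' r hy), fun z hz => .inl (hp z hz)⟩⟩) (a.imp_right fun b => ?_)
    have := card_pos.2 b
    simp only [card_cons]
    omega
  · obtain ⟨rfl, rfl⟩ : d = 0 ∧ t = 0 := by simpa using a
    obtain ⟨rfl, rfl⟩ : i = 0 ∧ j = 0 := by simpa using hd
    refine LinearMap.ext fun v => h.inj ?_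
    rw [cons_zero, h.ι_mul (G.mem_Tp (G.LT r)), L_mul r (h.mem v)]
    simp

/-- The recursion at a free marked point. -/
theorem Fr.op_psi (h : G.Fr ι) (d i j k) {z : H} (hz : z ∈ G.Tp) {t : Ms H} (ht : G.PP t) :
    G.op ι d i j ((k + 1, z) ::ₘ t) = cv (fun d₁ t₁ d₂ t₂ => G.op ι d₂ i j
      ((0, G.vec fun e => G.C d₁ ((0, e) ::ₘ (k, z) ::ₘ t₁)) ::ₘ t₂)) d t := by
  refine h.ext fun v y _ => ?_
  refine .trans ?_ (map_cv (G.η ∘ₗ LinearMap.mulRight ℂ y ∘ₗ ι ∘ₗ LinearMap.applyₗ v) _ d t).symm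
  rw [h.η_op d i j (ht.cons _ hz), cons_swap _ (k + 1, z), cons_swap _ (k + 1, z), G.trr3, sp_eq]
  refine cv_congr fun d₁ t₁ d₂ t₂ _ e => ?_
  refine .trans ?_ (h.η_op d₂ i j ((ht.le (e ▸ le_add_left _ _)).cons 0
    (G.vec_mem d₁ 0 ((ht.le (e ▸ le_add_right _ _)).cons k hz))) v y).symm
  simp only [insert_eq_cons, cons_add, singleton_add]
  rw [cons_swap _ (i, ι v), cons_swap _ (j, y)]

theorem Fr.op_left (h : G.Fr ι) (d i j k) {z : H} (hz : z ∈ G.Tp) {t : Ms H} (ht : G.PP t) :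
    G.op ι d (i + 1) j ((k, z) ::ₘ t) = cv (fun d₁ t₁ d₂ t₂ =>
      G.op ι d₂ 0 j ((k, z) ::ₘ t₂) * G.op ι d₁ i 0 t₁) d t := by
  refine h.ext fun v y _ => ?_
  have := h.η_cv i j G.pp_zero (G.pp_zero.cons k hz) ht d v y
  simp only [cons_add, Multiset.zero_add] at this
  rw [this, h.η_op d _ j (ht.cons _ hz), G.trr3]
  rfl

theorem Fr.op_right (h : G.Fr ι) (d i j k) {z : H} (hz : z ∈ G.Tp) {t : Ms H} (ht : G.PP t) :
    G.op ι d i (j + 1) ((k, z) ::ₘ t) = cv (fun d₁ t₁ d₂ t₂ =>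
      G.op ι d₂ 0 j t₂ * G.op ι d₁ i 0 ((k, z) ::ₘ t₁)) d t := by
  refine h.ext fun v y _ => ?_
  have := h.η_cv i j (G.pp_zero.cons k hz) G.pp_zero ht d v y
  simp only [cons_add, Multiset.zero_add] at this
  rw [this, h.η_op d _ _ (ht.cons _ hz), cons_swap (i, ι v), G.trr3, G.sp_swap]
  rfl

/-- **The descendant operators lie in the algebra of the primary operators.** -/
theorem Fr.desc (h : G.Fr ι) (d i j) {t : Ms H} (ht : G.PP t) :
    G.op ι d i j t ∈ G.alg ι (Set.Iic d) := by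
  induction hn : i + j + (t.map Prod.fst).sum using Nat.strong_induction_on generalizing d i j t with
  | _ n ih =>
  have m : ∀ {d d' : R →₀ ℕ} {i j} {t : Ms H}, d' ≤ d → G.PP t → i + j + (t.map Prod.fst).sum < n →
      G.op ι d' i j t ∈ G.alg ι (Set.Iic d) := fun a b c =>
    alg_mono (Set.Iic_subset_Iic.2 a) (ih _ c _ _ _ b rfl)
  have k : ∀ k z (s : Ms H), z ∈ G.Tp → G.PP s → i + j + (k + (s.map Prod.fst).sum) = n →
      i + j + k ≠ 0 → G.op ι d i j ((k, z) ::ₘ s) ∈ G.alg ι (Set.Iic d) := by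
    intro k z s hz hs e a
    have c : ∀ {t₁ t₂ : Ms H}, t₁ + t₂ = s → G.PP t₁ ∧ G.PP t₂ ∧
        (t₁.map Prod.fst).sum + (t₂.map Prod.fst).sum = (s.map Prod.fst).sum := fun e =>
      ⟨hs.le (e ▸ le_add_right _ _), hs.le (e ▸ le_add_left _ _), by
        rw [← e, Multiset.map_add, sum_add]⟩
    rcases k with _ | k
    · rcases i with _ | i
      · obtain ⟨j, rfl⟩ : ∃ j', j = j' + 1 := ⟨j - 1, by omega⟩
        rw [h.op_right d 0 j 0 hz hs]
        refine cv_mem _ fun d₁ t₁ d₂ t₂ e₁ e₂ => ?_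
        obtain ⟨c1, c2, c3⟩ := c e₂
        exact mul_mem (m (e₁ ▸ le_add_self) c2 (by omega))
          (m (e₁ ▸ le_self_add) (c1.cons 0 hz) (by rw [map_cons, sum_cons]; omega))
      · rw [h.op_left d i j 0 hz hs]
        refine cv_mem _ fun d₁ t₁ d₂ t₂ e₁ e₂ => ?_
        obtain ⟨c1, c2, c3⟩ := c e₂
        exact mul_mem (m (e₁ ▸ le_add_self) (c2.cons 0 hz) (by rw [map_cons, sum_cons]; omega))
          (m (e₁ ▸ le_self_add) c1 (by omega))
    · rw [h.op_psi d i j k hz hs]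
      refine cv_mem _ fun d₁ t₁ d₂ t₂ e₁ e₂ => ?_
      obtain ⟨c1, c2, c3⟩ := c e₂
      exact m (e₁ ▸ le_add_self) (c2.cons 0 (G.vec_mem d₁ 0 (c1.cons k hz)))
        (by rw [map_cons, sum_cons]; omega)
  by_cases a : Prim t
  · by_cases b : i + j = 0
    · obtain ⟨rfl, rfl⟩ : i = 0 ∧ j = 0 := by omega
      exact h.op_mem Set.self_mem_Iic ht a
    rcases t.empty_or_exists_mem with rfl | ⟨z, hz⟩
    · rcases eq_or_ne d 0 with rfl | c
      · exact h.op_zero i j ▸ zero_mem _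
      obtain ⟨r, hr⟩ := DFunLike.ne_iff.1 c
      have := Subalgebra.smul_mem _ (k 0 _ 0 (G.mem_Tp (G.LT r)) ht (by simpa using hn) (by omega))
        (d r : ℂ)⁻¹
      rwa [h.op_div r d i j ht a (.inl c), inv_smul_smul₀ (Nat.cast_ne_zero.2 hr)] at this
    · obtain ⟨s, rfl⟩ := exists_cons_of_mem hz
      exact k z.1 z.2 s (ht z hz) (ht.le (le_cons_self _ _)) (by simpa using hn) (by omega)
  · obtain ⟨z, hz, b⟩ : ∃ z ∈ t, z.1 ≠ 0 := by simpa only [Prim, not_forall, exists_prop] using a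
    obtain ⟨s, rfl⟩ := exists_cons_of_mem hz
    exact k z.1 z.2 s (ht z hz) (ht.le (le_cons_self _ _)) (by simpa using hn) (by omega)

theorem Fr.desc' (h : G.Fr ι) {S : Set (R →₀ ℕ)} (hS : IsLowerSet S) {d} (hd : d ∈ S) (i j)
    {t : Ms H} (ht : G.PP t) : G.op ι d i j t ∈ G.alg ι S :=
  alg_mono (hS.Iic_subset hd) (h.desc d i j ht)

theorem Fr.ops_le (h : G.Fr ι) {S : Set (R →₀ ℕ)} (hS : IsLowerSet S) : G.ops ι S ⊆ G.alg ι S :=
  fun _ ⟨_, a, i, j, _, b, c⟩ => h.eq_op b c ▸ h.desc' hS a i j b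

theorem Fr.adjoin_ops (h : G.Fr ι) {S : Set (R →₀ ℕ)} (hS : IsLowerSet S) :
    Algebra.adjoin ℂ (G.ops ι S) = G.alg ι S :=
  le_antisymm (Algebra.adjoin_le (h.ops_le hS))
    (Algebra.adjoin_mono fun _ ⟨d, a, t, b, _, c⟩ => ⟨d, a, 0, 0, t, b, c⟩)

/-- The primary operators of degree zero are scalars. -/
theorem Fr.prim_zero (h : G.Fr ι) {t : Ms H} (ht : G.PP t) (hp : Prim t) :
    G.op ι 0 0 0 t ∈ (⊥ : Subalgebra ℂ (End ℂ V)) := by
  refine bas_ind (Subalgebra.toSubmodule ⊥) {x | ∃ p, x ∈ G.T p p} t (G.Tp_eq ▸ ht) _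
    (G.op_lin ι 0 0 0) fun t' h1 h2 => ?_
  have h3 : Prim t' := fun z hz => by
    obtain ⟨w, a, b⟩ := mem_map.1 (h2 ▸ mem_map_of_mem Prod.fst hz)
    exact b ▸ hp w a
  have h4 : G.PP t' := fun z hz => let ⟨_, a⟩ := h1 z hz; G.mem_Tp a
  obtain ⟨u, rfl, h5⟩ := bas_lift (fun (i : ℤ × ℤ) (z : ℕ × H) => i.1 = i.2 ∧ z.2 ∈ G.T i.1 i.2) t'
    fun z hz => let ⟨p, a⟩ := h1 z hz; ⟨(p, p), rfl, a⟩
  by_cases a : ∀ x ∈ u, 0 < x.1.1
  · refine Set.mem_of_eq_of_mem (h.ext fun v y hy => ?_) (zero_mem _)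
    rw [h.η_op 0 0 0 h4, LinearMap.zero_apply, map_zero, zero_mul, map_zero]
    by_contra b
    have c := G.dim 0 (((3, 1), 0, ι v) ::ₘ ((1, 3), 0, y) ::ₘ u) (forall_mem_cons.2 ⟨h.mem v,
      forall_mem_cons.2 ⟨hy, fun x c => (h5 x c).2⟩⟩) (by simpa using b)
    have e := sum_nonneg (s := u.map fun x => 2 * (x.2.1 : ℤ) + x.1.1 + x.1.2 - 2)
      (forall_mem_map_iff.2 fun x c => by have := a x c; have := (h5 x c).1; omega)
    simp only [map_cons, sum_cons, Finsupp.zero_apply, Nat.cast_zero, mul_zero,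
      Finset.sum_const_zero] at c
    omega
  · obtain ⟨⟨⟨p, q⟩, k, z⟩, hx, b⟩ : ∃ x ∈ u, x.1.1 ≤ 0 := by simpa using a
    obtain ⟨rfl, c⟩ : p = q ∧ z ∈ G.T p q := h5 _ hx
    obtain rfl : k = 0 := h3 _ (mem_map_of_mem _ hx)
    obtain ⟨s, rfl⟩ := exists_cons_of_mem hx
    obtain ⟨w, rfl⟩ : ∃ w : ℂ, z = w • 1 := by
      rcases eq_or_lt_of_le b with rfl | b
      · exact G.t00 z c
      · exact ⟨0, by simpa [G.out p p (.inl b)] using c⟩
    rw [map_cons] at h3 h4 ⊢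
    rw [(G.op_lin ι 0 0 0 0 _).map_smul]
    refine Submodule.smul_mem _ _ ?_
    rcases eq_or_ne (s.map Prod.snd) 0 with e | e
    · rw [e, show G.op ι 0 0 0 ((0, 1) ::ₘ 0) = 1 from LinearMap.ext fun v => h.inj
        ((h.ι_mul (G.mem_Tp G.one) v).trans (one_mul _))]
      exact one_mem (⊥ : Subalgebra ℂ (End ℂ V))
    · refine Set.mem_of_eq_of_mem (h.ext fun v y hy => ?_) (zero_mem _)
      rw [h.η_op 0 0 0 ((h4.le (le_cons_self _ _)).cons 0 (G.mem_Tp G.one)), LinearMap.zero_apply,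
        map_zero, zero_mul, map_zero, cons_swap _ (0, 1), cons_swap _ (0, 1)]
      refine G.str 0 _ (forall_mem_cons.2 ⟨rfl, forall_mem_cons.2
        ⟨rfl, fun z hz => h3 z (mem_cons_of_mem hz)⟩⟩) (.inr ?_)
      have := card_pos.2 e
      simp only [card_cons]
      omega

theorem Fr.alg_zero (h : G.Fr ι) {S : Set (R →₀ ℕ)} (hS : S ⊆ {0}) : G.alg ι S = ⊥ :=
  eq_bot_iff.2 (Algebra.adjoin_le fun _ ⟨_, a, _, b, c, e⟩ => by
    obtain rfl := hS a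
    exact h.eq_op b e ▸ h.prim_zero b c)

/-- All operators of degree zero are scalars. -/
theorem Fr.zero (h : G.Fr ι) (i j) {t : Ms H} (ht : G.PP t) : ∃ c : ℂ, G.op ι 0 i j t = c • 1 := by
  have := h.desc 0 i j ht
  rw [h.alg_zero (S := Set.Iic 0) fun _ a => le_antisymm a zero_le] at this
  obtain ⟨c, e⟩ := Algebra.mem_bot.1 this
  exact ⟨c, e ▸ Algebra.algebraMap_eq_smul_one c⟩

/-- A Hodge class acts on the classes of type `(3, 1)` by a scalar. -/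
theorem Fr.mul_scalar (h : G.Fr ι) {z : H} (hz : z ∈ G.Tp) : ∃ c : ℂ, ∀ v, z * ι v = c • ι v :=
  let ⟨c, e⟩ := h.zero 0 0 (G.pp_zero.cons 0 hz)
  ⟨c, fun v => by rw [← h.ι_mul hz, ← cons_zero, e]; simp⟩

variable (G)

theorem fr_subtype : G.Fr (G.T 3 1).subtype := ⟨Subtype.val_injective, Submodule.range_subtype _⟩

/-- The form needed for the twisted theory. -/
theorem mem_ty (d : R →₀ ℕ) :
    G.C d ∈ Qz.Ty G.η G.H0 (G.T 3 1) (G.alg (G.T 3 1).subtype (Set.Iic d)) := fun _ hs =>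
  ⟨fun k => ⟨_, G.vec_mem d k hs, fun e => (G.η_vec (G.lin d k _) e).symm⟩, fun i j =>
    ⟨_, G.fr_subtype.desc d i j hs, fun a e => (G.fr_subtype.η_op d i j hs a e).symm⟩⟩

theorem mu (A : Subalgebra ℂ (End ℂ (G.T 3 1))) : Qz.Mu G.H0 (G.T 3 1) A := fun _ hy =>
  let ⟨c, e⟩ := G.fr_subtype.mul_scalar hy
  ⟨c • 1, A.smul_mem A.one_mem c, fun a => (e a).symm⟩

end Gw

end Vale.Agent.P287Q.Pcs
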