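import Vale.Agent.P287Q.Top.Iso
import Vale.Agent.P287Q.Re.Bas

/-! The even cohomology of a variety: integral, types, conjugation, Casimir element. -/

set_option linter.style.haveILetI false

namespace Vale.Agent.P287Q.Var

open Set Function Module P291Z P269 P269.Mono
open scoped ComplexConjugate

variable {n : ℕ} (V : Var n)

/-- The integral of even classes. -/
noncomputable def ηe : Ch.Hev V.X →ₗ[ℂ] ℂ := V.int ∘ₗ (Ch.Hev V.X).val.toLinearMap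

/-- The types of even classes. -/
noncomputable def Te (p q : ℤ) : Submodule ℂ (Ch.Hev V.X) :=
  (V.T p q).comap (Ch.Hev V.X).val.toLinearMap

/-- The hyperplane classes. -/
noncomputable def Le (r : V.R) : Ch.Hev V.X :=
  ⟨V.lc (Pi.single r 1), Ch.mem_Hev (k := 1) (V.lc_deg _)⟩

/-- Conjugation of even classes. -/
noncomputable def cje : Ch.Hev V.X →ₛₗ[starRingEnd ℂ] Ch.Hev V.X where
  toFun x := ⟨cj x.1, Re.cj_mem x.2⟩
  map_add' _ _ := Subtype.ext (map_add _ _ _)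
  map_smul' _ _ := Subtype.ext (map_smulₛₗ _ _ _)

/-- The classes of type `(3, 1)` are even. -/
noncomputable def ιe : V.Hg 3 1 →ₗ[ℂ] Ch.Hev V.X :=
  (V.Hg 3 1).subtype.codRestrict (Ch.Hev V.X).toSubmodule fun x =>
    Ch.mem_Hev (k := 2) (V.Hg_deg (p := 3) (q := 1) x.2)

theorem ηe_apply (x : Ch.Hev V.X) : V.ηe x = V.int x.1 := rfl

theorem mem_Te {p q : ℤ} {x : Ch.Hev V.X} : x ∈ V.Te p q ↔ x.1 ∈ V.T p q := Iff.rfl

theorem mem_Te' {p q : ℕ} {x : Ch.Hev V.X} : x ∈ V.Te p q ↔ x.1 ∈ V.Hg p q := by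
  rw [Hg_eq]; rfl

theorem ιe_val (x : V.Hg 3 1) : (V.ιe x).1 = x.1 := rfl

theorem ιe_inj : Injective V.ιe := fun _ _ h => Subtype.ext (congrArg (fun x => x.1) h :)

theorem ιe_rng : LinearMap.range V.ιe = V.Te 3 1 := Submodule.ext fun x =>
  ⟨fun ⟨y, h⟩ => h ▸ (V.mem_Te' (p := 3) (q := 1)).2 y.2,
    fun h => ⟨⟨x.1, (V.mem_Te' (p := 3) (q := 1)).1 h⟩, rfl⟩⟩

theorem deg_zero {y : H V.X} (hy : H.IsDeg 0 y) : ∃ t : ℂ, y = t • 1 := by
  have := V.nice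
  obtain ⟨a, ha, h0, rfl⟩ := H.isDeg_iff.1 hy
  rw [h0.eq_fn] at ha
  obtain ⟨t, ht⟩ := (P269.Orb.cocycle_fn.1 ha).exists_eq_const
  exact ⟨t, by rw [h0.eq_fn, ht, ← hcls_one, ← hcls_smul t cocycle_one, ← fn_const]; rfl⟩

theorem int_cj (x : H V.X) : V.int (cj x) = conj (V.int x) := V.qm.re x

variable {V} (g : Hb.HG V.ps V.T)
include g

theorem ηe_nondeg {x : Ch.Hev V.X} (h : ∀ y, V.ηe (x * y) = 0) : x = 0 :=
  Subtype.ext (V.pd (g.induction (P := fun y => V.int (x.1 * y) = 0) (by simp)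
    (fun a b c d => by rw [mul_add, map_add, c, d, add_zero]) fun p q y hy => by
      have a := g.deg p q y hy
      rcases Int.even_or_odd' (p + q) with ⟨k, e | e⟩ <;> rw [e] at a
      · exact h ⟨y, Ch.mem_Hev a⟩
      · exact Ch.Hev.induction (P := fun x => V.int (x * y) = 0) x.2
          (fun l c b => V.int_deg (by omega) (b.mul a))
          fun a b c d => by rw [add_mul, map_add, c, d, add_zero]))

theorem exists_cas : ∃ (m : ℕ) (e f : Fin m → Ch.Hev V.X), ∀ x, ∑ a, V.ηe (x * e a) • f a = x := by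
  have := V.fin
  have : FiniteDimensional ℂ (Ch.Hev V.X) :=
    .of_injective (Ch.Hev V.X).val.toLinearMap Subtype.val_injective
  let B : LinearMap.BilinForm ℂ (Ch.Hev V.X) := (LinearMap.mul ℂ _).compr₂ V.ηe
  have hB : B.Nondegenerate :=
    ⟨fun _ h => ηe_nondeg g h, fun x h => ηe_nondeg g fun y => mul_comm y x ▸ h y⟩
  let b := finBasis ℂ (Ch.Hev V.X)
  refine ⟨_, b, B.dualBasis hB b, fun x => .trans ?_ ((B.dualBasis hB b).sum_repr x)⟩
  simp only [LinearMap.BilinForm.dualBasis_repr_apply]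
  rfl

theorem Te_top : ⨆ i : ℤ × ℤ, V.Te i.1 i.2 = ⊤ := eq_top_iff.2 fun x _ => by
  have : x.1 ∈ (⨆ i : ℤ × ℤ, V.Te i.1 i.2).map (Ch.Hev V.X).val.toLinearMap :=
    Ch.Hev.induction (P := fun y => y ∈ (⨆ i : ℤ × ℤ, V.Te i.1 i.2).map
      (Ch.Hev V.X).val.toLinearMap) x.2 (fun k c a => g.mem_of_deg a fun p y b =>
        ⟨⟨y, Ch.mem_Hev (k := k) (by simpa using g.deg _ _ y b)⟩,
          Submodule.mem_iSup_of_mem (p, 2 * k - p) b, rfl⟩) fun _ _ => add_mem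
  obtain ⟨y, a, b⟩ := this
  exact (Subtype.ext b : y = x) ▸ a

omit g in
theorem Te_bot {p q : ℤ} (h : V.T p q = ⊥) : V.Te p q = ⊥ := eq_bot_iff.2 fun _ a =>
  Subtype.ext ((Submodule.mem_bot ℂ).1 (h ▸ V.mem_Te.1 a))

omit g in
theorem pp_Te {x : H V.X} (h : x ∈ V.pp) : ∃ a : x ∈ Ch.Hev V.X, ⟨x, a⟩ ∈ ⨆ p, V.Te p p := by
  refine Submodule.iSup_induction (motive := fun x => ∃ a : x ∈ Ch.Hev V.X,
    (⟨x, a⟩ : Ch.Hev V.X) ∈ ⨆ p, V.Te p p) _ h (fun p x a => ?_) ⟨zero_mem _, zero_mem _⟩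
    fun _ _ ⟨a, b⟩ ⟨c, d⟩ => ⟨add_mem a c, add_mem b d⟩
  exact ⟨Ch.mem_Hev (k := p) (by simpa [two_mul] using V.Hg_deg a),
    Submodule.mem_iSup_of_mem (p : ℤ) (V.mem_Te'.2 a)⟩

theorem pp_of {x : Ch.Hev V.X} (h : x ∈ ⨆ p, V.Te p p) : x.1 ∈ V.pp := by
  refine Submodule.iSup_induction (motive := fun x : Ch.Hev V.X => x.1 ∈ V.pp) _ h
    (fun p x a => ?_) (zero_mem _) fun _ _ => add_mem
  rcases lt_or_ge p 0 with b | b
  · rw [g.eq_zero_out (V.mem_Te.1 a) (.inl b)]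
    exact zero_mem _
  · obtain ⟨p, rfl⟩ := Int.eq_ofNat_of_zero_le b
    exact Submodule.mem_iSup_of_mem p (V.mem_Te'.1 a)

end Vale.Agent.P287Q.Var
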