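import Vale.Agent.P287Q.Pcs.Num
import Vale.Agent.P287Q.Pcs.Coh
import Vale.Agent.P287Q.As.End
import Vale.Agent.P287Q.Hb.L11
import Vale.Agent.P287Q.Hb.All

/-! The package of the invariants of a fourfold without holomorphic two-forms. -/

namespace Vale.Agent.P287Q

open Set Function P291Z P269 Pcs

/-- **The package exists.** -/
theorem Prs.exists_gi (hH : HDG) (hT : TRN) (V : Var 4) (h20 : V.Hg 2 0 = ⊥) (P : Prs V)
    (hN : P.Nef) : ∃ G : Gw (Ch.Hev V.X) P.R, P.Gi G ∧ G.C = P.Cn ∧ G.L = P.Ln ∧ G.c = P.γ := by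
  have g : Hb.HG V.ps V.T := V.pv.hg
  obtain ⟨m, e, f, hc⟩ := Var.exists_cas g
  have t20 : V.T 2 0 = ⊥ := (V.T_nat 2 0).trans h20
  exact ⟨{
    A := Fin m
    e := e
    f := f
    η := V.ηe
    C := P.Cn
    T := V.Te
    L := P.Ln
    c := P.γ
    cj := V.cje
    cas := hc
    top := Var.Te_top g
    one := g.one
    mul := fun p q p' q' x a y b => g.mul p q p' q' x.1 a y.1 b
    out := fun p q a => Var.Te_bot (g.out p q a)
    t20 := Var.Te_bot t20
    t42 := Var.Te_bot (g.eq_bot_dual (g.eq_bot_swap t20))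
    t00 := fun x a => (V.deg_zero (g.deg 0 0 x.1 a)).imp fun _ b => Subtype.ext b
    ηT := fun p q x a b => by_contra fun c => b (g.J_eq_zero a c)
    LT := fun r => V.lc_mem _
    cjT := fun p q x a => g.cj p q x.1 a
    cj_cj := fun x => Subtype.ext (Mono.cj_cj x.1)
    cj_mul := fun x y => Subtype.ext (Mono.cj_mul x.1 y.1)
    cjη := fun x => V.int_cj x.1
    hr := fun x a b => Subtype.ext (V.hr31 g h20 x.1 a b)
    lin := P.Cn_lin St.well
    hdg := P.Cn_hdg hH
    dim := fun d t a b => by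
      have := P.Cn_dim d (t.map fun x => (x.1.1 + x.1.2, x.2))
        (Multiset.forall_mem_map_iff.2 fun x c => g.deg x.1.1 x.1.2 x.2.2.1 (a x c)) (by rwa [Multiset.map_map])
      simpa only [Multiset.map_map, comp_def, add_assoc, Nat.cast_ofNat,
        show (4 - 3 : ℤ) = 1 from rfl] using this
    div := P.Cn_div
    str := P.Cn_str
    three := P.Cn_three
    unst := P.Cn_unst
    trr := hT 4 V P hN _ e f hc
    real := fun d => P.Cn_cj d _ fun _ => rfl },
    ⟨fun _ => rfl, fun _ _ _ => .rfl, fun _ => rfl, P.Cn_coe St.well, fun _ _ => hN.pos⟩,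
    rfl, rfl, rfl⟩

end Vale.Agent.P287Q
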