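import Vale.Agent.P287Q.Top.Off
import Vale.Agent.P287Q.G.Vir.RD
import Vale.Agent.P287Q.G.Prj.Tgt
import Vale.Agent.P287Q.G.Qrr.Stm

/-! The target of a presentation is the variety: integrals, line bundles, degrees. -/

set_option linter.unusedSectionVars false
set_option linter.style.haveILetI false

namespace Vale.Agent.P287Q

open Set Function Topology Filter P291Z P269 P269.Tq P269.Holo P269.Mono Module

theorem Var.lc_sum {n : ℕ} (V : Var n) (χ : V.R → ℤ) :
    V.lc χ = ∑ r, (χ r : ℂ) • V.lc (Pi.single r 1) := by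
  refine (V.pv.lcq_zpow χ).trans (Finset.sum_congr rfl fun r _ => congrArg _ ?_)
  rw [Var.lc, V.pv.lcq_zpow, Finset.sum_eq_single r (fun s _ h => by simp [h]) (by simp)]
  simp

namespace Prs

variable {n : ℕ} {V : Var n} (P : Prs V)

theorem good : P.F.Good := P.nice.toGood

theorem one : P.F.One P.k :=
  ⟨P.nice, P.abs, ⟨0, P.B.trans (eq_singleton_iff_unique_mem.2
    ⟨trivial, fun _ _ => Subsingleton.elim _ _⟩)⟩, P.big⟩

theorem cp : P.F.Cp :=
  haveI : Subsingleton (P.F.Bs P.F.B) := inferInstanceAs (Subsingleton (Quot _))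
  inferInstance

theorem mfd_bs {z} (hz : z ∈ P.F.bs) : MfdAt P.F.bs P.F.mov.ncard z := by
  classical
  have e : ∀ s, s ∈ P.F.bs ↔ ∀ j ∉ P.F.mov, s.2 j = 0 := fun s =>
    ⟨fun h j a => h.2.2 j (P.abs.1 a), fun h => ⟨P.B ▸ trivial, P.abs.2 ▸ trivial,
      fun j a => h j (disjoint_left.1 P.good.zer_base a)⟩⟩
  obtain ⟨m, a, b⟩ := (MfdAt.univ z).sub' (Z := P.F.bs) (f := fun s (j : (P.F.movᶜ : Set _)) => s.2 j)
    (.of_an (analyticAt_pi_iff.2 fun j => analyticAt_pi_iff.1 analyticAt_snd j.1))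
    (funext fun j => (e z).1 hz j j.2) (fun c _ => Submodule.subset_span
      ⟨fun ε => (z.1, fun j => z.2 j + ε * extend Subtype.val c 0 j),
        ⟨analyticAt_const.prod (analyticAt_pi_iff.2 fun _ => by fun_prop), by simp,
          .of_forall fun _ => trivial⟩, HasDerivAt.deriv (hasDerivAt_pi.2 fun j => by
        simpa [Subtype.val_injective.extend_apply] using
          ((hasDerivAt_id' (0 : ℂ)).mul_const (c j)).const_add (z.2 j))⟩)
    (.of_forall fun s => by simp [e, funext_iff])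
  have := ncard_add_ncard_compl P.F.mov
  simp only [finrank_fintype_fun_eq_card, finrank_prod, Fintype.card_eq_zero, zero_add,
    ← Nat.card_eq_fintype_card, Nat.card_coe_set_eq] at a
  rwa [show P.F.mov.ncard = m by omega]

theorem mfd {z} (hz : z ∈ P.F.cone) : MfdAt P.F.cone (n + Fintype.card P.R) z := by
  classical
  have hz' := P.F.mem_cone.1 hz
  obtain ⟨K₁, hr⟩ := P.reg.loc z hz
  obtain ⟨m, a, b⟩ := (P.mfd_bs hz'.1).sub' (Z := P.F.cone) (f := fun s (k : K₁) => P.F.eqn s k)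
    (.of_an (analyticAt_pi_iff.2 fun k => Fam.an_eqn _ z)) (funext fun k => hz'.2.2 k)
    (fun c _ => Submodule.subset_span (by
      obtain ⟨η, h1, h2⟩ := hr.ind fun k => if e : k ∈ K₁ then c ⟨k, e⟩ else 0
      refine ⟨fun ε => (z.1, fun j => z.2 j + ε * η j),
        ⟨analyticAt_const.prod (analyticAt_pi_iff.2 fun _ => by fun_prop), by simp,
          .of_forall fun ε => ⟨hz.1, P.abs.2 ▸ trivial, fun j hj => by
            simp [h1 j (disjoint_left.1 P.good.zer_base hj), hz'.1.2.2 j hj]⟩⟩,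
        HasDerivAt.deriv (hasDerivAt_pi.2 fun k => ?_)⟩
      exact (Vir.hasDerivAt_eval ((P.F.fib z.1).F k) z.2 η).congr_deriv
        ((h2 k k.2).trans (dif_pos k.2)))) (by
      filter_upwards [hr.cut, P.good.openU.mem_nhds hz'.2.1] with s h1 h2
      rw [P.F.mem_cone]
      exact and_congr_right fun e => ⟨fun k => funext fun j => k.2 j,
        fun k => ⟨h2, h1 e fun j hj => congrFun k ⟨j, hj⟩⟩⟩)
  have c := P.reg.n_add P.good.toInv hr hz
  rw [finrank_fintype_fun_eq_card, ← Nat.card_eq_fintype_card, Nat.card_coe_set_eq] at a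
  rwa [show n + Fintype.card P.R = m from Nat.add_right_cancel (c.trans a.symm)]

theorem compact : CompactSpace (P.F.X P.F.cone) := P.good.compact P.cp

/-- The target is a compact complex manifold of dimension `n`. -/
theorem qm : QM P.F.actT P.F.cone n :=
  haveI := P.good.fp
  haveI := P.compact
  .of_mfd P.F.lin_actT fun z hz => ⟨_, by simp [add_comm], P.mfd hz⟩

theorem hol : Hol P.F.actT (scl V.π) P.F.cone V.A (fun a => a.2 ∘ P.ρ) fun z => z.2 ∘ P.ι :=
  .of_an ⟨rfl, fun _ _ _ _ => rfl, fun _ _ => (continuous_pi fun r =>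
      (continuous_apply (P.ρ r)).comp continuous_snd).continuousAt⟩ P.tors.maps
    (fun z _ => analyticAt_pi_iff.2 fun j => analyticAt_pi_iff.1 analyticAt_snd (P.ι j))
    fun a _ _ _ => funext fun j => by
      simp only [scl, comp_apply, Wt.actT, P.tors.w, Finset.univ_eq_empty, Finset.prod_empty,
        one_mul]
      rw [Finset.prod_eq_single (P.ρ (V.π j)) (fun r _ h => by simp [h]) (by simp)]
      simp

theorem hm : Hm fun t : V.R → ℂ => ((1, fun r => ∏ s, t s ^ P.M r s) : (Empty → ℂ) × (P.R → ℂ)) :=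
  ⟨Prod.ext rfl (funext fun r => (hm_chr (P.M r)).one), fun a b c d =>
    Prod.ext (mul_one _).symm (funext fun r => (hm_chr (P.M r)).mul a b c d), fun a b =>
      continuousAt_const.prodMk (continuousAt_pi.2 fun r => (hm_chr (P.M r)).cont a b)⟩

theorem hol' : Hol (scl V.π) P.F.actT V.A P.F.cone (fun t => (1, fun r => ∏ s, t s ^ P.M r s))
    fun y => (0, P.Φ y) :=
  have a : ∀ y ∈ V.A, HolOn V.A (fun y => ((0 : Empty → ℂ), P.Φ y)) y := fun y hy =>
    (HolOn.of_an analyticAt_const).prod (P.tors.hol y hy)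
  ⟨⟨P.hm, P.tors.mem, fun y hy => (a y hy).tendsto hy, P.tors.eqv⟩, fun y hy =>
    (a y hy).imp fun _ b => ⟨b.1, eventually_nhdsWithin_iff.2 b.2⟩⟩

theorem q_q (x : V.X) : P.q (P.hol'.q x) = x := by
  obtain ⟨x, rfl⟩ := mk_surj x
  exact congrArg (Quo.mk _) (Subtype.ext (P.tors.sec _ x.2))

theorem q_q' (x) : P.hol'.q (P.q x) = x := by
  obtain ⟨x, rfl⟩ := mk_surj x
  obtain ⟨t, a, b⟩ := P.tors.orb _ x.2
  exact Quot.sound ⟨(1, t), Prod.isUnit_iff.2 ⟨isUnit_one, a⟩, b⟩

theorem q_bij : Bijective P.q := ⟨LeftInverse.injective P.q_q', RightInverse.surjective P.q_q⟩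

theorem int_pb (x : H V.X) : P.F.intX P.F.cone (P.pb x) = V.int x :=
  (P.qm.J_eq_ev _).symm.trans (P.qm.J_map V.qm P.hol P.q_bij x)

theorem pb_bij : Bijective P.pb := P.qm.bij_map V.qm P.hol P.q_bij

theorem map_pb (x : H V.X) : H.map P.hol'.q (P.pb x) = x :=
  (H.map_map _ _ _).trans (H.map_id P.q_q x)

theorem pb_map (x) : P.pb (H.map P.hol'.q x) = x := (H.map_map _ _ _).trans (H.map_id P.q_q' x)

/-- The line bundles of the target come from the variety. -/
theorem lc_eq (χ : P.R → ℤ) :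
    P.F.lc P.F.cone 0 χ = P.pb (V.lc fun s => ∑ r, χ r * P.M r s) := by
  have := P.good.fp
  rw [← P.pb_map (P.F.lc _ 0 χ), Wt.lc_eq]
  refine congrArg _ ((P.hol'.toEqh.map_lcq (hm_chT 0 χ)).trans
    (lcq_congr (hm_chr _) fun t ht => ?_))
  simp only [chT, Finset.univ_eq_empty, Finset.prod_empty, one_mul, ← Finset.prod_zpow, ← zpow_mul,
    zpow_sum_ne (Pi.isUnit_iff.1 ht _).ne_zero, mul_comm]
  exact Finset.prod_comm

theorem pb_L (s : V.R) : P.pb (V.lc (Pi.single s 1)) = P.F.lc P.F.cone 0 (Pi.single (P.ρ s) 1) := by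
  rw [lc_eq]
  exact congrArg (fun χ => P.pb (V.lc χ)) (funext fun r => by simp [Pi.single_apply, P.tors.M_ρ])

theorem up_ρ (d : V.R → ℤ) (s) : P.up d (P.ρ s) = d s := by
  simp [up, P.tors.M_ρ, Pi.single_apply]

theorem up_inj : Injective P.up := fun d d' h => funext fun s => by
  rw [← P.up_ρ d, h, up_ρ]

theorem up_add (d d' : V.R → ℤ) : P.up (d + d') = P.up d + P.up d' :=
  funext fun r => by simp [up, mul_add, Finset.sum_add_distrib]

theorem up_zero : P.up 0 = 0 := funext fun r => by simp [up]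

variable {P} {ν κ : Type} [Fintype ν] [Fintype κ] {m : AM Empty P.R P.J ν κ} {g : ℤ} {d : P.R → ℤ}

theorem typ_up (h : m.Sol P.F) (t : m.Typ g d) : d = P.up (d ∘ P.ρ) := by
  rw [← funext t.2]
  exact P.deg_eq h

/-- The degrees are nonnegative. -/
theorem pos (h : m.Sol P.F) (t : m.Typ g d) (s : V.R) : 0 ≤ d (P.ρ s) := by
  obtain ⟨u, a, b, -⟩ := Cv.exists_gen (L := m.L (P.ρ s)) le_rfl (fun x => by
    obtain ⟨j, a, b⟩ := V.pv.sub (P.tors.maps _ (h.2.2 x)) s
    have c := (h.2.1 (P.ι j)).1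
    rw [P.tors.w, a, Cv.bz_single, zpow_one] at c
    exact ⟨_, c, b⟩) finite_empty
  exact t.2 _ ▸ Cv.Eff.deg_nonneg ⟨u, a, b⟩

theorem supp {d l} (h : P.gw' d l ≠ 0) : ∃ m : AM Empty P.R P.J
    (Fin (l.map (Prod.map id P.pb)).length ⊕ Fin 0) (Fin 0),
      m.Sol P.F ∧ m.Stable P.F.θ ∧ m.Typ 0 d ∧ m.Conn := by
  rw [gw', Fam.cor_eq] at h
  exact (St.supp _ _ _ _ _ _ _ _ P.nice P.big h).1

theorem gw_pos {d l} (h : P.gw d l ≠ 0) : 0 ≤ d := fun s =>
  let ⟨_, a, _, b, _⟩ := supp h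
  P.up_ρ d s ▸ pos a b s

end Prs

end Vale.Agent.P287Q
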