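import Vale.Agent.P287Q.G.Qrr.PrG
import Vale.Agent.P287Q.G.Bas.Num
import Vale.Agent.P269.LG.TopA
import Vale.Agent.P269.Pt.Bnd
import Vale.Agent.P287Q.Trr.Sep

/-! Splitting off the component of a marked point, with a selector on the complement. -/

set_option linter.unusedSectionVars false
set_option linter.style.haveILetI false

namespace Vale.Agent.P269

open P291Z Set Function Topology Filter Module Holo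

variable {Λ R J K ι ν κ ν₁ κ₁ ν₂ κ₂ β : Type} [Fintype Λ] [Fintype R] [Fintype J]
  [Fintype K] [Fintype ι] [DecidableEq ι] [Fintype ν] [Fintype κ]
  [Fintype ν₁] [Fintype κ₁] [Fintype ν₂] [Fintype κ₂]

theorem Pr2.ind_mem {X : Type} [TopologicalSpace X] (C : Set X) : hcls (ind C) ∈ Ch.Hev X :=
  Ch.mem_Hev (k := 0) (hcls_isDeg (Num.isDeg_ind _))

theorem Pr2.ind_inter {X : Type} (B C : Set X) : ind (B ∩ C) = ind B * ind C := by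
  rw [ind_eq_fn, ind_eq_fn, ind_eq_fn, inter_indicator_one, LG.TopP.fn_mul]

open Cv in
theorem AM.sep_split {m : AM Λ R J ν (Fin 0)} {m₁ : AM Λ R J ν₁ (Fin 0)} {m₂ : AM Λ R J ν₂ (Fin 0)}
    {φ ψ j₁ j₂} (s : AM.Split m m₁ m₂ φ ψ j₁ j₂) (c : m₁.Conn) (a e : ν₁) (b e' : ν₂) :
    AM.Sep (.inl (φ (.inl a))) (.inl (φ (.inr b))) (.inl (φ (.inl e))) (.inl (φ (.inr e'))) m ↔
      m₂.Conn := by
  have u : m.cmp (m.p (.inl (φ (.inl e)))) = range j₁ := by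
    rw [← s.one.mark_inl, s.one.cmp, c.cmp_eq, image_univ]
  have v : m.cmp (m.p (.inl (φ (.inr e')))) = j₂ '' m₂.cmp (m₂.p (.inl e')) := by
    rw [← s.two.mark_inl, s.two.cmp]
  rw [AM.Sep, u, v]
  refine ⟨fun h => AC.conn_iff_cmp.2 ⟨_, eq_univ_of_forall fun z => s.two.inj.mem_set_image.1
    ((h.2.2.2 (j₂ z)).resolve_left fun ⟨x, w⟩ => s.ne _ _ w)⟩, fun h => ?_⟩
  rw [h.cmp_eq, image_univ]
  exact ⟨⟨_, s.one.mark_inl a⟩, ⟨_, s.two.mark_inl b⟩,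
    fun ⟨x, w⟩ => s.ne _ _ (w.trans (s.two.mark_inl e').symm),
    fun z => (s.cases z).imp (fun ⟨x, w⟩ => ⟨x, w.symm⟩) fun ⟨x, w⟩ => ⟨x, w.symm⟩⟩

open Cv in
theorem AM.sep_ctyp {d : R → ℤ} {m : AM Λ R J ν (Fin 0)} {a b e e'} (s : AM.Sep a b e e' m)
    (t : m.Typ (-1) d) :
    m.CTyp (m.p e) 0 (fun r => degOn (m.L r) (m.cmp (m.p e))) {n | m.p n ∈ m.cmp (m.p e)} ∧
      m.p b ∉ m.cmp (m.p e) := by
  have u : m.cmp (m.p e') = (m.cmp (m.p e))ᶜ := Set.ext fun z => ⟨fun h h' => s.2.2.1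
    ((LC.cmp_eq h).symm.trans (LC.cmp_eq h') ▸ LC.mem_cmp _), (s.2.2.2 z).resolve_left⟩
  obtain ⟨g₁, c₁⟩ := AC.degOn_omega_cmp (c := m.toAC) (m.p e)
  obtain ⟨g₂, c₂⟩ := AC.degOn_omega_cmp (c := m.toAC) (m.p e')
  have c := degOn_add_compl (L := omega m.R m.N ∅) (LC.sat_cmp (m.p e)).1
  rw [← u, c₁, c₂, deg_omega, t.1, Finset.card_empty] at c
  exact ⟨⟨c₁.trans (by omega), fun _ => rfl, fun _ => Iff.rfl⟩, u.subset s.2.1⟩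

namespace Ch

variable {ch : Ch ι J} {n₁ n₂ : Nm ι J} {s : Sv ν κ ν₁ κ₁ ν₂ κ₂} {e : K → ι → ℕ} {K₀ : RD R}
  {ℓ : R → ι → ℤ} [IsEmpty κ₁] [IsEmpty κ₂]
  {F : Fam Empty Λ R J K} {b b' N₁ N₂ d : ℕ} {U₁ Z₁ : Set ((ch.re n₁).WF ν₁ κ₁ Λ)}
  {U₂ Z₂ : Set ((ch.re n₂).WF ν₂ κ₂ Λ)} {Z O M : Set (ch.WF ν κ Λ)}

theorem QZ.intg2 (h : QZ s F e K₀ ℓ b b' U₁ Z₁ U₂ Z₂ N₁ N₂ Z O M d) {l} (hB : F.B = {l})
    (_ : CompactSpace (ModS F (clo F Z))) (_ : CompactSpace (ModS F (clo F Z₁)))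
    (_ : CompactSpace (ModS F (clo F Z₂))) (a : Mk ν₁ κ₁) {C : Set (ModS F (clo F Z₁))}
    (hC : IsClopen C)
    (hc : ∀ x, Quo.mk _ x ∈ C ↔ IsConnected (crv x.1.2)) {P : Set (ModS F (clo F Z))}
    (hP : ∀ x, Quo.mk _ x ∈ P ↔
      ∃ z : ch.WQ n₁ n₂ ν κ ν₁ κ₁ ν₂ κ₂ Λ, z ∈ CQ s ∧ z ∈ Cn ∧ z.1 = x.1)
    {C' : Set (ModS F (clo F Z₂))} (hC' : IsClopen C') {P' : Set (ModS F (clo F Z))}
    (hP' : IsClopen P') (hp : ∀ (z : ch.WQ n₁ n₂ ν κ ν₁ κ₁ ν₂ κ₂ Λ) x y, z ∈ CQ s → z ∈ Cn →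
      (Quo.mk _ ⟨z.1, x⟩ ∈ P' ↔ Quo.mk _ ⟨pt₂ z, y⟩ ∈ C'))
    {Θ} {L : Finset β} {Θ₁ Θ₂} (hΘ : Qrr.Cop Θ L Θ₁ Θ₂) (b₁ : κ₁ → κ) (b₂ : κ₂ → κ)
    {fs₁ : List (Fac F.toWt ν₁ κ₁)} {fs₂ : List (Fac F.toWt ν₂ κ₂)}
    (a₁ : ∀ f ∈ fs₁, f.At ((ch.re n₁).solF ν₁ κ₁ F ∩ clo F Z₁) ∧
      (f.re (s.φ ∘ .inl) b₁).At (ch.solF ν κ F ∩ clo F Z) ∧ f.NoTw)
    (a₂ : ∀ f ∈ fs₂, f.At ((ch.re n₂).solF ν₂ κ₂ F ∩ clo F Z₂) ∧
      (f.re (s.φ ∘ .inr) b₂).At (ch.solF ν κ F ∩ clo F Z) ∧ f.NoTw) :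
    Loc.intg (virF F e (clo F Z)) (hcls (ind P) * (hcls (ind P') *
      ((.tw Θ :: (fs₁.map (Fac.re (s.φ ∘ .inl) b₁) ++
      fs₂.map (Fac.re (s.φ ∘ .inr) b₂))).map (F.cl _)).prod)) = ∑ t ∈ L,
      Loc.intg (virF F e (clo F Z₁)) (hcls (ind C) * ((.tw (Θ₁ t) :: fs₁).map (F.cl _)).prod) *
        Loc.intg (virF F e (clo F Z₂))
          (hcls (ind C') * ((.tw (Θ₂ t) :: fs₂).map (F.cl _)).prod) := by
  haveI := h.bs.isAct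
  haveI := h.bs.nice
  haveI := h.nice₁
  haveI := h.nice₂
  haveI := h.vd.nice h.std
  obtain ⟨c₀, c₁⟩ := F.casB_pt hB
  obtain ⟨Δ, hΔ⟩ := h.bs.exists_isDB
  obtain ⟨p, q⟩ := h.isClosedEmbedding s
  haveI := Nice.of_isEmbedding p.isEmbedding p.isClosed_range.isLocallyClosed
  obtain ⟨r₁, r₂, r₃⟩ := h.res_eq hΔ a
  have k : P = range (eqM_fstQ (s := s) (Wg := F.toWt) h.maps).map := Set.ext <| Quot.ind fun x =>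
    (hP x).trans ⟨fun ⟨z, u, v, w⟩ => ⟨Quo.mk _ ⟨z, ⟨h.clo_eq.ge ⟨u, mem_preimage.2
      (mem_of_eq_of_mem w x.2.2)⟩, mem_preimage.2 (mem_of_eq_of_mem w x.2.1)⟩, v⟩,
        congrArg (Quo.mk _) (Subtype.ext w)⟩, fun ⟨y, w⟩ =>
      (hP x).1 (mem_of_eq_of_mem w.symm (y.ind (β := fun y =>
        (eqM_fstQ (s := s) (Wg := F.toWt) h.maps).map y ∈ P) fun z =>
          (hP _).2 ⟨z, z.2.1.1.1, z.2.2, rfl⟩))⟩
  have m₂ : MapsTo pt₂ (LC s F Z₁ Z₂) _ := fun _ z => (eqL₂ s F _ _).maps z.1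
  have hY : LC s F Z₁ Z₂ ⊆ CQ s := fun _ z => z.1.1.1
  have k' : H.map (eqM_fstQ (s := s) (Wg := F.toWt) h.maps).map (hcls (ind P')) =
      H.map (eqM_pt₂ (Wg := F.toWt) hY m₂).map (hcls (ind C')) := by
    rw [PrGT.map_ind _ hP', PrGT.map_ind _ hC']
    exact congrArg (fun U => hcls (ind U)) (Set.ext <| Quot.ind fun z => hp z _ _ (hY z.2) z.2.2)
  rw [k]
  refine PrGT.main p hΔ.co q (h.bs.hcls_eq hΔ c₁) (i := (EqM.incl inter_subset_left).map) r₁ r₂ r₃ hC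
    (Set.ext <| Quot.ind fun z => ⟨fun ⟨y, w⟩ => ?_, fun w =>
      ⟨Quo.mk _ ⟨z, z.2, (hc _).1 w⟩, rfl⟩⟩) ?_
  · obtain ⟨y, rfl⟩ := Quot.exists_rep y
    exact mem_of_eq_of_mem w.symm ((hc _).2 y.2.2)
  rw [map_mul, k', CQ.cl_prod hY (h.vd.gz h.std) (h.vd₁.gz h.ok₁.toStd) (h.vd₂.gz h.ok₂.toStd) h.maps
    (fun _ z => (eqL₁ s F _ _).maps z.1) m₂ h.qn hΘ b₁ b₂ a₁ a₂, Finset.mul_sum]
  refine Finset.sum_congr rfl fun t _ => ?_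
  rw [← mul_assoc, Hev.commute (map_mem_Hev _ (Pr2.ind_mem C')), mul_assoc, ← map_mul]
  exact congrArg₂ (fun f g => H.map f _ * H.map g _) (ContinuousMap.ext (Quot.ind fun _ => rfl))
    (ContinuousMap.ext (Quot.ind fun _ => rfl))

end Ch

/-- **the component of a marked point splits off** -/
theorem St.prC2 (hW : St.Well) [DecidableEq R] (F : Fam Empty Λ R J K) (δ : J → ℕ) (l) (k : ℕ)
    (g g₁ g₂ : ℤ) (d d₁ d₂ : R → ℤ) (φ : ν₁ ⊕ ν₂ ≃ ν) (u : ν → ℕ) (a : ν₁) (Θ) (T : Finset β) (Θ₁ Θ₂)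
    (fs₁ : List (Fac F.toWt ν₁ (Fin 0))) (fs₂ : List (Fac F.toWt ν₂ (Fin 0)))
    (h : F.Nice δ) (hB : F.B = {l}) (hk : F.Big k) (hg : g₁ + g₂ = g + 1) (hd : d₁ + d₂ = d)
    (hΘ : Qrr.Cop Θ T Θ₁ Θ₂) (o₁ : ∀ f ∈ fs₁, f.Ok F (fun n => u (φ (.inl n)) • δ) ∧ f.NoTw)
    (o₂ : ∀ f ∈ fs₂, f.Ok F (fun n => u (φ (.inr n)) • δ) ∧ f.NoTw)
    {Q : AM Λ R J ν (Fin 0) → Prop} {Q₂ : AM Λ R J ν₂ (Fin 0) → Prop}
    (hQ : ∀ m m', m.Same m' → Q m → Q m') (hQ₂ : ∀ m m', m.Same m' → Q₂ m → Q₂ m')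
    (hq : ∀ m (m₁ : AM Λ R J ν₁ (Fin 0)) m₂ j₁ j₂, AM.Split m m₁ m₂ φ (Equiv.sumEmpty _ _) j₁ j₂ →
      m₁.Conn → (Q m ↔ Q₂ m₂)) :
    F.inv k g d (fun n => u n • δ)
        (fun m => m.CTyp (m.p (.inl (φ (.inl a)))) g₁ d₁ (range fun n => .inl (φ (.inl n))) ∧ Q m)
        (.tw Θ :: (fs₁.map (Fac.re (φ ∘ .inl) id) ++ fs₂.map (Fac.re (φ ∘ .inr) id))) =
      ∑ t ∈ T, F.inv k g₁ d₁ (fun n => u (φ (.inl n)) • δ) (fun m => m.Conn) (.tw (Θ₁ t) :: fs₁) *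
        F.inv k g₂ d₂ (fun n => u (φ (.inr n)) • δ) Q₂ (.tw (Θ₂ t) :: fs₂) := by
  have cp : F.Cp := (F.casB_pt hB).1
  have P : F.Sel k g d (fun n => u n • δ) fun m : AM Λ R J ν (Fin 0) =>
      m.CTyp (m.p (.inl (φ (.inl a)))) g₁ d₁ (range fun n => .inl (φ (.inl n))) :=
    .of_same fun _ _ e => e.ctyp
  have P' : F.Sel k g d (fun n => u n • δ) Q := .of_same hQ
  have P₂ : F.Sel k g₂ d₂ (fun n => u (φ (.inr n)) • δ) Q₂ := .of_same hQ₂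
  have p₁ : ∀ f ∈ fs₁, (f.re (φ ∘ .inl) id).Ok F fun n => u n • δ := fun f p => (o₁ f p).1.rel _
  have p₂ : ∀ f ∈ fs₂, (f.re (φ ∘ .inr) id).Ok F fun n => u n • δ := fun f p => (o₂ f p).1.rel _
  have o : ∀ f ∈ Fac.tw Θ :: (fs₁.map (Fac.re (φ ∘ .inl) id) ++ fs₂.map (Fac.re (φ ∘ .inr) id)),
      f.Ok F fun n => u n • δ := List.forall_mem_cons.2 ⟨trivial, List.forall_mem_append.2
        ⟨List.forall_mem_map.2 p₁, List.forall_mem_map.2 p₂⟩⟩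
  have q₁ : ∀ t, ∀ f ∈ Fac.tw (Θ₁ t) :: fs₁, f.Ok F fun n => u (φ (.inl n)) • δ :=
    fun _ => List.forall_mem_cons.2 ⟨trivial, fun f p => (o₁ f p).1⟩
  have q₂ : ∀ t, ∀ f ∈ Fac.tw (Θ₂ t) :: fs₂, f.Ok F fun n => u (φ (.inr n)) • δ :=
    fun _ => List.forall_mem_cons.2 ⟨trivial, fun f p => (o₂ f p).1⟩
  obtain ⟨D, ⟨⟨hD, w⟩, w₁⟩, w₂⟩ := ((((F.eventually_bigD k).and
    (Fam.Iv.well hW ⟨h, cp, hk, P.and P', o, fun q => q.elim0⟩)).and (T.eventually_all.2 fun t _ =>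
      Fam.Iv.well (g := g₁) (d := d₁) hW ⟨h, cp, hk, .conn, q₁ t, fun q => q.elim0⟩)).and
    (T.eventually_all.2 fun t _ =>
      Fam.Iv.well (g := g₂) (d := d₂) hW ⟨h, cp, hk, P₂, q₂ t, fun q => q.elim0⟩)).exists
  have c : ∀ (ν : Type) [Fintype ν] g d (u : ν → J → ℕ), CompactSpace (F.Mod (Fin 0) k D g d u) :=
    fun _ _ _ _ u => Cpt.compactSpace_mod h.toGood hk hD rfl (hB ▸ isCompact_singleton) subset_rfl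
      (fun _ a => ⟨1, isUnit_one, h.invB _ isUnit_one _ a⟩) u
  let s : Sv ν (Fin 0) ν₁ (Fin 0) ν₂ (Fin 0) := ⟨φ, Equiv.sumEmpty _ _⟩
  obtain ⟨K₀, b, b', U₁, U₂, N₁, N₂, O, M, n, z⟩ := h.qz (s := s) hk hD hg hd hB u
  have e : (range fun n => .inl (φ (.inl n))) = range s.mk₁ := Set.ext fun _ =>
    ⟨fun ⟨n, e⟩ => ⟨.inl n, e⟩, fun ⟨n, e⟩ => n.casesOn (fun n e => ⟨n, e⟩) (·.1.elim0) e⟩
  have C := Fam.isClopen_sel_of_same (F := F) (κ := Fin 0) (g := g₁) (d := d₁)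
    (u := fun n => u (φ (.inl n)) • δ) hD fun _ _ => AM.Same.conn
  have C₂ := Fam.isClopen_sel_of_same (F := F) (g := g₂) (d := d₂)
    (u := fun n => u (φ (.inr n)) • δ) hD hQ₂
  have A := Fam.isClopen_sel_of_same (F := F) (g := g) (d := d) (u := fun n => u n • δ) hD
    (P := fun m : AM Λ R J ν (Fin 0) =>
      m.CTyp (m.p (.inl (φ (.inl a)))) g₁ d₁ (range fun n => .inl (φ (.inl n))))
    fun _ _ e => e.ctyp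
  have A' := Fam.isClopen_sel_of_same (F := F) (g := g) (d := d) (u := fun n => u n • δ) hD hQ
  rw [w, Fam.intg_sel (h.gz _ hk hD g d u) _ (Fam.sel_and hD P.1 P'.1 ▸ A.inter A')
    fun f p => h.at_of_ok hk hD (o f p), Finset.sum_congr rfl fun t p => congrArg₂ (· * ·)
      ((w₁ t p).trans (Fam.intg_sel (h.gz _ hk hD g₁ d₁ _) _ C
        fun f p => h.at_of_ok hk hD (q₁ t f p))) ((w₂ t p).trans
      (Fam.intg_sel (h.gz _ hk hD g₂ d₂ _) _ C₂ fun f p => h.at_of_ok hk hD (q₂ t f p))),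
    Fam.sel_and hD P.1 P'.1, Pr2.ind_inter, hcls_mul (cocycle_ind A) (cocycle_ind A'), mul_assoc]
  refine z.intg2 hB (c _ _ _ _) (c _ _ _ _) (c _ _ _ _) (.inl a) C (fun x => ?_) (fun x => ?_) C₂ A'
    (fun y x x' p q => ?_) hΘ id id
    (fun f p => ⟨h.at_of_ok hk hD (o₁ f p).1, h.at_of_ok hk hD (p₁ f p), (o₁ f p).2⟩)
    fun f p => ⟨h.at_of_ok hk hD (o₂ f p).1, h.at_of_ok hk hD (p₂ f p), (o₂ f p).2⟩
  · obtain ⟨m, r⟩ := z.ok₁.lat.exists_rep_sol x.2.1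
    exact (Fam.mem_sel (fun _ _ => AM.Iso.conn) r).trans (r.conn x.2.1.1.2.1)
  · obtain ⟨m, r⟩ := z.lat.exists_rep_sol x.2.1
    exact (Fam.mem_sel P.1 r).trans
      (e ▸ Fam.ctyp_iff (s := s) hk hD hg hd x.2.1.1.2.1 r (.inl a))
  · obtain ⟨m, r⟩ := z.lat.exists_rep_sol x.1
    obtain ⟨m₁, m₂, j₁, j₂, t, r₁, r₂⟩ := Ch.CQ.exists_rep z.lat p r
    exact (Fam.mem_sel (x := ⟨_, x⟩) P'.1 r).trans ((hq _ _ _ _ _ t ((Ch.CQ.cn_iff p r₁).1 q)).trans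
      (Fam.mem_sel (x := ⟨_, x'⟩) P₂.1 r₂).symm)

end Vale.Agent.P269
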