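import Vale.Agent.P287Q.Pcs.Hdg
import Vale.Agent.P287Q.H3.All

/-! Invariants of unbalanced type vanish, without hypotheses. -/

namespace Vale.Agent.P287Q

theorem Pcs.hdg : Pcs.HDG := Pcs.hdg_of H3.stHdg

end Vale.Agent.P287Q
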