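import Vale.Agent.P287Q.Pcs.Cd

/-! The invariants of a presentation indexed by the degrees of the line bundles of the target. -/

namespace Vale.Agent.P287Q

open Set Function P291Z P269 P269.Tq Lz

namespace Prs

variable {n : ℕ} {V : Var n} (P : Prs V)

/-- The basic line bundles of the target are generated by fields. -/
def Nef : Prop := ∀ z ∈ P.F.cone, ∀ r, ∃ j, P.F.w j = Pi.single r 1 ∧ z.2 j ≠ 0

/-- The invariants with even insertions. -/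
noncomputable def Cn (d : P.R →₀ ℕ) (t : Ms (Ch.Hev V.X)) : ℂ := P.gw' (fun r => d r) (un t.toList)

theorem Cn_coe (hW : St.Well) (d) (l : List (ℕ × Ch.Hev V.X)) :
    P.Cn d l = P.gw' (fun r => d r) (un l) :=
  P.gw'_perm hW _ ((Multiset.coe_eq_coe.1 (Multiset.coe_toList _)).map _) un_ev

theorem Cn_cons (hW : St.Well) (d) (x : ℕ × Ch.Hev V.X) (l : List (ℕ × Ch.Hev V.X)) :
    P.Cn d (x ::ₘ l) = P.gw' (fun r => d r) ((x.1, x.2.1) :: un l) := P.Cn_coe hW d (x :: l)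

theorem Cn_lin (hW : St.Well) (d i t) : IsLinearMap ℂ fun x => P.Cn d ((i, x) ::ₘ t) := by
  obtain ⟨l, rfl⟩ := Quot.exists_rep t
  simp only [Multiset.quot_mk_to_coe'', P.Cn_cons hW]
  exact ⟨fun x y => (P.gw'_lin hW _ i _).map_add _ _, fun c x => (P.gw'_lin hW _ i _).map_smul _ _⟩

theorem Cn_ofFn (hW : St.Well) (d) {m : ℕ} (f : Fin m → ℕ × Ch.Hev V.X) : P.Cn d (List.ofFn f) =
    P.F.corP P.k (fun m => m.Conn) 1 (fun r => d r) (-1) fun s => ((f s).1, P.pb (f s).2) := by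
  rw [Cn_coe P hW, un, List.map_ofFn, gw'_ofFn]
  rfl

theorem Cn_zero (hW : St.Well) (d) {t : Ms (Ch.Hev V.X)} {i : ℕ} (h : (i, 0) ∈ t) :
    P.Cn d t = 0 := by
  obtain ⟨t, rfl⟩ := Multiset.exists_cons_of_mem h
  exact (P.Cn_lin hW d i t).map_zero

variable {P} (h : P.Nef)
include h

/-- The degrees are nonnegative. -/
theorem Nef.deg {ν κ : Type} [Fintype ν] [Fintype κ] {m : AM Empty P.R P.J ν κ} (a : m.Sol P.F)
    (r : P.R) : 0 ≤ Cv.deg (m.L r) := by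
  obtain ⟨u, b, c, -⟩ := Cv.exists_gen (L := m.L r) le_rfl (fun x => by
    obtain ⟨j, b, c⟩ := h _ (a.2.2 x) r
    have e := (a.2.1 j).1
    rw [b, Cv.bz_single, zpow_one] at e
    exact ⟨_, e, c⟩) finite_empty
  exact Cv.Eff.deg_nonneg ⟨u, b, c⟩

theorem Nef.pos {d l} (a : P.gw' d l ≠ 0) : 0 ≤ d := fun r =>
  let ⟨_, b, _, c, _⟩ := supp a
  c.2 r ▸ h.deg b r

end Prs

/-- The topological recursion relation. -/
def Pcs.TRN : Prop := ∀ (n : ℕ) (V : Var n) (P : Prs V), P.Nef → ∀ (A : Type) [Fintype A]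
  (e f : A → Ch.Hev V.X), (∀ x : Ch.Hev V.X, ∑ a, V.int (x * e a).1 • f a = x) →
  ∀ d i j x y t, P.Cn d ((i + 1, x) ::ₘ (j, y) ::ₘ t) + P.Cn d ((i, x) ::ₘ (j + 1, y) ::ₘ t) =
    cv (fun d₁ t₁ d₂ t₂ => ∑ a, P.Cn d₁ ((0, e a) ::ₘ (i, x) ::ₘ t₁) *
      P.Cn d₂ ((0, f a) ::ₘ (j, y) ::ₘ t₂)) d t

end Vale.Agent.P287Q
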