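import Vale.Agent.P287Q.Pcs.TrrC
import Vale.Agent.P287Q.Pcs.Nef
import Vale.Agent.P287Q.Lz.Ser
import Vale.Agent.P287Q.Trr.Main
import Vale.Agent.P287Q.G.Map.Well

/-! The topological recursion relation for the invariants of a presentation. -/

namespace Vale.Agent.P287Q

open Set Function P291Z P269 P269.Tq Lz

namespace Prs

variable {n : ℕ} {V : Var n} (P : Prs V)

theorem cc_eq (d l) : TrA.cc P.F P.k d l = P.gw' d (l.map (Prod.map id (H.map P.hol'.q))) := by
  rw [gw', List.map_map, Prod.map_comp_map, show P.pb ∘ H.map P.hol'.q = id from funext P.pb_map,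
    id_comp, Prod.map_id, List.map_id]
  rfl

theorem Cn_cc (hW : St.Well) {α : Type} (d) (a b : ℕ × Ch.Hev V.X) (T : Finset α)
    (f : α → ℕ × Ch.Hev V.X) : P.Cn d (a ::ₘ b ::ₘ T.val.map f) = TrA.cc P.F P.k (fun r => d r)
      ((a.1, P.pb a.2) :: (b.1, P.pb b.2) :: T.toList.map fun n => ((f n).1, P.pb (f n).2)) := by
  rw [← T.coe_toList, Multiset.map_coe, Multiset.cons_coe, Multiset.cons_coe, P.Cn_coe hW, gw', un]
  simp only [List.map_cons, List.map_map]
  rfl

end Prs

theorem Pcs.trn_of (hW : St.Well) (hT : St.Trr) : Pcs.TRN := by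
  intro n V P hN A _ e f cas d i j x y t
  obtain ⟨m, g, rfl⟩ : ∃ (m : ℕ) (g : Fin m → ℕ × Ch.Hev V.X), t = Finset.univ.val.map g :=
    ⟨_, t.toList.get, by rw [Fin.univ_val_map, List.ofFn_get, Multiset.coe_toList]⟩
  simp only [cv_univ, P.Cn_cc hW]
  refine TrA.trr P.one hW (fun n => P.pb_ev (g n).2.2) (P.pb_ev x.2) (P.pb_ev y.2) i j hT
    (u := fun d r => d r) (fun a b h => Finsupp.ext fun r => Nat.cast_injective (congrFun h r))
    (fun a b => funext fun r => Nat.cast_add _ _) (fun d l h => ?_) (fun s => P.pb_ev (e s).2)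
    (fun w hw => ?_) d
  · exact ⟨Finsupp.equivFunOnFinite.symm fun r => (d r).toNat,
      funext fun r => Int.toNat_of_nonneg (hN.pos (P.cc_eq d l ▸ h) r)⟩
  · obtain ⟨w, rfl⟩ : ∃ v : Ch.Hev V.X, P.pb v = w := ⟨Ch.Hev.map P.hol'.q ⟨w, hw⟩, P.pb_map w⟩
    refine Eq.trans ?_ (congrArg (fun z : Ch.Hev V.X => P.pb z.1) (cas w))
    simp only [AddSubmonoidClass.coe_finsetSum, SetLike.val_smul, map_sum, map_smul, ← map_mul,
      P.int_pb, MulMemClass.coe_mul]

/-- **The topological recursion relation.** -/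
theorem Pcs.trn : Pcs.TRN := Pcs.trn_of St.well St.trr

end Vale.Agent.P287Q
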