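import Vale.Agent.P287Q.Pcs.Cd
import Vale.Agent.P287Q.Top.Iso

/-! The inputs of the package of invariants of a variety. -/

namespace Vale.Agent.P287Q.Pcs

open P291Z P269 Lz

/-- The classes of the line bundles have type `(1, 1)`. -/
def L11 : Prop := ∀ (n : ℕ) (V : Var n) (χ : V.R → ℤ), V.lc χ ∈ V.Hg 1 1

/-- The Hodge-Riemann relations on fourfolds. -/
def HRV : Prop := ∀ V : Var 4, ∃ χ, Hb.HR V.ps V.T (V.lc χ)

/-- Invariants of unbalanced type vanish. -/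
def HDG : Prop := ∀ (n : ℕ) (V : Var n) (P : Prs V) (d : P.R → ℤ)
  (l : List ((ℕ × ℕ) × ℕ × H V.X)), (∀ x ∈ l, x.2.2 ∈ V.Hg x.1.1 x.1.2) →
  P.gw' d (l.map Prod.snd) ≠ 0 → (l.map (·.1.1)).sum = (l.map (·.1.2)).sum

/-- The topological recursion relation. -/
def TRR : Prop := ∀ (n : ℕ) (V : Var n) (P : Prs V) (A : Type) [Fintype A]
  (e f : A → Ch.Hev V.X), (∀ x : Ch.Hev V.X, ∑ a, V.int (x * e a).1 • f a = x) →
  ∀ d i j x y t, P.C d ((i + 1, x) ::ₘ (j, y) ::ₘ t) + P.C d ((i, x) ::ₘ (j + 1, y) ::ₘ t) =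
    cv (fun d₁ t₁ d₂ t₂ => ∑ a, P.C d₁ ((0, e a) ::ₘ (i, x) ::ₘ t₁) *
      P.C d₂ ((0, f a) ::ₘ (j, y) ::ₘ t₂)) d t

/-- The invariants do not depend on the presentation. -/
def EMB : Prop := ∀ (n : ℕ) (V : Var n) (P P' : Prs V) d l, P.gw d l = P'.gw d l

end Vale.Agent.P287Q.Pcs
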