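import Vale.Agent.P287Q.Pcs.Defs
import Vale.Agent.P287Q.Lz.Ser
import Vale.Agent.P287Q.Qz.Alg

/-! Two point operators: existence, uniqueness, types, the recursion relations. -/

namespace Vale.Agent.P287Q.Pcs

open Lz Module
open Multiset hiding map_add map_zero

variable {H R V : Type} [CommRing H] [Algebra ℂ H] [Fintype R] [DecidableEq R] [AddCommGroup V]
  [Module ℂ V]

/-- A multilinear function of the insertions is determined by its values on a spanning set. -/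
theorem bas_ind {M : Type} [AddCommGroup M] [Module ℂ M] (W : Submodule ℂ M) (S : Set H) (t : Ms H)
    (ht : ∀ z ∈ t, z.2 ∈ Submodule.span ℂ S) : ∀ Φ : Ms H → M,
    (∀ k s, IsLinearMap ℂ fun e => Φ ((k, e) ::ₘ s)) →
    (∀ t' : Ms H, (∀ z ∈ t', z.2 ∈ S) → t'.map Prod.fst = t.map Prod.fst → Φ t' ∈ W) → Φ t ∈ W := by
  induction t using Multiset.induction_on with
  | empty => exact fun Φ _ h => h 0 (by simp) rfl
  | cons a s ih =>
    intro Φ l h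
    refine (Submodule.span_le (p := W.comap ((l a.1 s).mk' _))).2 (fun x hx => ?_)
      (ht a (mem_cons_self _ _))
    refine ih (fun z hz => ht z (mem_cons_of_mem hz)) (fun s => Φ ((a.1, x) ::ₘ s))
      (fun k s => by simpa only [cons_swap (a.1, x)] using l k ((a.1, x) ::ₘ s)) fun t' h1 h2 => ?_
    exact h _ (forall_mem_cons.2 ⟨hx, h1⟩) (by rw [map_cons, map_cons, h2])

theorem bas_lift {α β : Type} (P : α → β → Prop) (t : Multiset β) (h : ∀ z ∈ t, ∃ a, P a z) :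
    ∃ u : Multiset (α × β), u.map Prod.snd = t ∧ ∀ x ∈ u, P x.1 x.2 := by
  induction t using Multiset.induction_on with
  | empty => exact ⟨0, rfl, by simp⟩
  | cons z s ih =>
    obtain ⟨u, h1, h2⟩ := ih fun z hz => h z (mem_cons_of_mem hz)
    obtain ⟨a, ha⟩ := h z (mem_cons_self _ _)
    exact ⟨(a, z) ::ₘ u, by rw [map_cons, h1], forall_mem_cons.2 ⟨ha, h2⟩⟩

namespace Gw

variable (G : Gw H R) {ι : V →ₗ[ℂ] H}

theorem nondeg {x : H} (h : ∀ y, G.η (x * y) = 0) : x = 0 := by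
  rw [← G.cas x]
  simp only [h, zero_smul, Finset.sum_const_zero]

theorem isCas : Qz.Cas G.η G.e G.f := ⟨G.cas, fun x => sub_eq_zero.1 (G.nondeg fun y => by
  conv_lhs => rw [sub_mul, map_sub, mul_comm x y, ← G.cas y, Finset.sum_mul, Finset.sum_mul]
  simp only [map_sum, smul_mul_assoc, map_smul, smul_eq_mul, G.cas]
  rw [← Finset.sum_sub_distrib]
  exact Finset.sum_eq_zero fun a _ => by rw [mul_comm y, mul_comm x]; ring)⟩

theorem η_vec {φ : H → ℂ} (h : IsLinearMap ℂ φ) (y : H) : G.η (G.vec φ * y) = φ y := by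
  rw [← G.isCas.symm.sum h y]
  simp only [vec, Finset.sum_mul, map_sum, smul_mul_assoc, map_smul, smul_eq_mul]
  exact Finset.sum_congr rfl fun a _ => by rw [mul_comm y, mul_comm]

theorem lin₂ (d) (x : ℕ × H) (i t) : IsLinearMap ℂ fun y => G.C d (x ::ₘ (i, y) ::ₘ t) := by
  simpa only [cons_swap x] using G.lin d i (x ::ₘ t)

theorem lin_add (d) (s : Ms H) (i t) : IsLinearMap ℂ fun y => G.C d (s + (i, y) ::ₘ t) := by
  simpa only [add_cons] using G.lin d i (s + t)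

theorem η_opH (d i j t x y) :
    G.η (G.opH d i j t x * y) = G.C d ((i, x) ::ₘ (j, y) ::ₘ t) :=
  G.η_vec (G.lin₂ d (i, x) j t) y

theorem cj_one : G.cj 1 = 1 := by
  have h := G.cj_mul 1 (G.cj 1)
  rw [one_mul, G.cj_cj, mul_one] at h
  exact h.symm

theorem bot_cj {p q : ℤ} (h : G.T p q = ⊥) : G.T q p = ⊥ := (Submodule.eq_bot_iff _).2 fun x hx => by
  have := G.cjT _ _ x hx
  rw [h, Submodule.mem_bot] at this
  rw [← G.cj_cj x, this, map_zero]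

theorem mem_Tp {p : ℤ} {x : H} (h : x ∈ G.T p p) : x ∈ G.Tp := Submodule.mem_iSup_of_mem p h

theorem Tp_eq : G.Tp = Submodule.span ℂ {x | ∃ p, x ∈ G.T p p} := by
  rw [Tp, Submodule.iSup_eq_span]
  exact congrArg _ (Set.ext fun x => by simp)

theorem Tp_mul {x y : H} (hx : x ∈ G.Tp) (hy : y ∈ G.Tp) : x * y ∈ G.Tp := by
  rw [Tp_eq] at *
  have := Submodule.mul_mem_mul hx hy
  rw [Submodule.span_mul_span] at this
  refine Submodule.span_mono ?_ this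
  rintro _ ⟨a, ⟨p, ha⟩, b, ⟨q, hb⟩, rfl⟩
  exact ⟨p + q, G.mul _ _ _ _ a ha b hb⟩

/-- The Hodge classes as an algebra. -/
def H0 : Subalgebra ℂ H := G.Tp.toSubalgebra (G.mem_Tp G.one) fun _ _ => G.Tp_mul

theorem mem_H0 {x : H} : x ∈ G.H0 ↔ x ∈ G.Tp := Iff.rfl

theorem Tp_real : G.Tp ≤ Submodule.span ℂ {x | ∃ p, x ∈ G.T p p ∧ G.cj x = x} := by
  refine iSup_le fun p x hx => ?_
  have h := G.cjT _ _ x hx
  have e : x = (2⁻¹ : ℂ) • (x + G.cj x) + (-(2⁻¹ : ℂ) * Complex.I) • (Complex.I • (x - G.cj x)) := by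
    rw [smul_smul, mul_assoc, Complex.I_mul_I]
    module
  rw [e]
  refine add_mem (Submodule.smul_mem _ _ (Submodule.subset_span ⟨p, add_mem hx h, ?_⟩))
    (Submodule.smul_mem _ _ (Submodule.subset_span ⟨p, Submodule.smul_mem _ _ (sub_mem hx h), ?_⟩))
  · rw [map_add, G.cj_cj, add_comm]
  · rw [map_smulₛₗ, map_sub, G.cj_cj, Complex.conj_I, neg_smul, ← smul_neg, neg_sub]

variable {G} in
theorem PP.cons {t : Ms H} (h : G.PP t) (k : ℕ) {z : H} (hz : z ∈ G.Tp) : G.PP ((k, z) ::ₘ t) :=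
  forall_mem_cons.2 ⟨hz, h⟩

variable {G} in
theorem PP.le {s t : Ms H} (h : G.PP t) (a : s ≤ t) : G.PP s := fun z b => h z (mem_of_le a b)

variable {G} in
theorem PP.add {s t : Ms H} (h : G.PP s) (h' : G.PP t) : G.PP (s + t) :=
  fun z b => (mem_add.1 b).elim (h z) (h' z)

theorem pp_zero : G.PP 0 := fun _ h => absurd h (notMem_zero _)

/-- Only type zero contributes. -/
theorem van {d} {t : Ms H} (ht : G.PP t) (u : Multiset ((ℤ × ℤ) × ℕ × H))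
    (hu : ∀ x ∈ u, x.2.2 ∈ G.T x.1.1 x.1.2) (h : (u.map fun x => x.1.1 - x.1.2).sum ≠ 0) :
    G.C d (u.map Prod.snd + t) = 0 := by
  refine (Submodule.mem_bot ℂ).1 (bas_ind ⊥ {x | ∃ p, x ∈ G.T p p} t (G.Tp_eq ▸ ht)
    (fun t => G.C d (u.map Prod.snd + t)) (G.lin_add d _) fun t' h1 _ => ?_)
  obtain ⟨v, rfl, h2⟩ := bas_lift (fun (i : ℤ × ℤ) (z : ℕ × H) => i.1 = i.2 ∧ z.2 ∈ G.T i.1 i.2) t'
    fun z hz => let ⟨p, a⟩ := h1 z hz; ⟨(p, p), rfl, a⟩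
  by_contra a
  have := G.hdg d (u + v) (fun x b => (mem_add.1 b).elim (hu x) fun c => (h2 x c).2)
    (by rw [Multiset.map_add]; exact a)
  rw [Multiset.map_add, sum_add, sum_eq_zero (s := v.map _) (forall_mem_map_iff.2 fun x b =>
    sub_eq_zero.2 (h2 x b).1), add_zero] at this
  exact h this

theorem mem_of_orth (s : Set (ℤ × ℤ)) {z : H}
    (h : ∀ p q, (4 - p, 4 - q) ∉ s → ∀ y ∈ G.T p q, G.η (z * y) = 0) :
    z ∈ ⨆ i ∈ s, G.T i.1 i.2 := by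
  have k : ∀ (s : Set (ℤ × ℤ)) p q, (4 - p, 4 - q) ∉ s → ∀ y ∈ G.T p q,
      ∀ a ∈ ⨆ i ∈ s, G.T i.1 i.2, G.η (a * y) = 0 := fun s p q b y hy =>
    show (⨆ i ∈ s, G.T i.1 i.2) ≤ LinearMap.ker (G.η ∘ₗ LinearMap.mulRight ℂ y) from
      iSup₂_le fun i hi a ha => by
        by_contra c
        obtain ⟨c1, c2⟩ := G.ηT _ _ _ (G.mul _ _ _ _ a ha y hy) c
        exact b (by rwa [← eq_sub_of_add_eq c1, ← eq_sub_of_add_eq c2])
  have e : z ∈ (⨆ i ∈ s, G.T i.1 i.2) ⊔ ⨆ i ∈ sᶜ, G.T i.1 i.2 := by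
    rw [← iSup_union, Set.union_compl_self, iSup_univ, G.top]
    trivial
  obtain ⟨a, ha, b, hb, rfl⟩ := Submodule.mem_sup.1 e
  have : b = 0 := G.nondeg fun y => by
    have hy : y ∈ ⨆ i : ℤ × ℤ, G.T i.1 i.2 := by rw [G.top]; trivial
    refine (show (⨆ i : ℤ × ℤ, G.T i.1 i.2) ≤ LinearMap.ker (G.η ∘ₗ LinearMap.mulLeft ℂ b) from
      iSup_le fun i y hy => ?_) hy
    by_cases c : (4 - i.1, 4 - i.2) ∈ s
    · exact k sᶜ _ _ (not_not.2 c) y hy b hb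
    · have := h _ _ c y hy
      rwa [add_mul, map_add, k s _ _ c y hy a ha, zero_add] at this
  rwa [this, add_zero]

theorem vec_mem (d k) {t : Ms H} (ht : G.PP t) :
    (G.vec fun e => G.C d ((k, e) ::ₘ t)) ∈ G.Tp := by
  refine (show (⨆ i ∈ {i : ℤ × ℤ | i.1 = i.2}, G.T i.1 i.2) ≤ G.Tp from
    iSup₂_le fun i hi x hx => G.mem_Tp (p := i.2) (hi ▸ hx)) (G.mem_of_orth _ fun p q h y hy => ?_)
  rw [G.η_vec (G.lin d k t)]
  refine G.van ht {((p, q), k, y)} (by simpa using hy) ?_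
  simp only [Set.mem_ofPred_eq, map_singleton, sum_singleton] at h ⊢
  omega

theorem opH_mem (d i j) {t : Ms H} (ht : G.PP t) {x : H} (hx : x ∈ G.T 3 1) :
    G.opH d i j t x ∈ G.T 3 1 := by
  refine (show (⨆ i ∈ {i : ℤ × ℤ | i.1 = i.2 + 2}, G.T i.1 i.2) ≤ G.T 3 1 from
    iSup₂_le fun ⟨p, q⟩ hi => ?_) (G.mem_of_orth _ fun p q h y hy => ?_)
  · obtain rfl : p = q + 2 := hi
    obtain h | rfl | rfl | rfl : (q + 2 < 0 ∨ q < 0 ∨ 4 < q + 2 ∨ 4 < q) ∨ q = 0 ∨ q = 1 ∨ q = 2 := by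
      omega
    exacts [(G.out _ _ h).le.trans bot_le, G.t20.le.trans bot_le, le_rfl, G.t42.le.trans bot_le]
  · rw [G.η_opH]
    have := G.van (d := d) ht {((3, 1), i, x), ((p, q), j, y)} (by simpa using ⟨hx, hy⟩) (by
      simp only [Set.mem_ofPred_eq, insert_eq_cons, map_cons, sum_cons, map_singleton,
        sum_singleton] at h ⊢
      omega)
    simpa using this

theorem op_lin (ι : V →ₗ[ℂ] H) (d i j k t) :
    IsLinearMap ℂ fun z => G.op ι d i j ((k, z) ::ₘ t) := by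
  have l : ∀ x y, IsLinearMap ℂ fun z => G.C d (x ::ₘ y ::ₘ (k, z) ::ₘ t) := fun x y => by
    simpa only [insert_eq_cons, cons_add, singleton_add] using G.lin_add d {x, y} k t
  refine ⟨fun a b => LinearMap.ext fun v => ?_, fun c a => LinearMap.ext fun v => ?_⟩
  · refine (congrArg ι.leftInverse ?_).trans (map_add _ _ _)
    simp only [LinearMap.comp_apply, opH, LinearMap.coe_mk, AddHom.coe_mk, vec, (l _ _).map_add, add_smul, Finset.sum_add_distrib]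
  · refine (congrArg ι.leftInverse ?_).trans (map_smul _ _ _)
    simp only [LinearMap.comp_apply, opH, LinearMap.coe_mk, AddHom.coe_mk, vec, (l _ _).map_smul, smul_eq_mul, mul_smul, Finset.smul_sum]

variable {G}

theorem Fr.mem (h : G.Fr ι) (v : V) : ι v ∈ G.T 3 1 := h.rng ▸ LinearMap.mem_range_self ι v

theorem Fr.ι_op (h : G.Fr ι) (d i j) {t : Ms H} (ht : G.PP t) (v : V) :
    ι (G.op ι d i j t v) = G.opH d i j t (ι v) := by
  obtain ⟨w, hw⟩ : G.opH d i j t (ι v) ∈ LinearMap.range ι := h.rng ▸ G.opH_mem d i j ht (h.mem v)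
  change ι (ι.leftInverse (G.opH d i j t (ι v))) = _
  rw [← hw, LinearMap.leftInverse_apply_of_inj (LinearMap.ker_eq_bot.2 h.inj)]

theorem Fr.η_op (h : G.Fr ι) (d i j) {t : Ms H} (ht : G.PP t) (v : V) (y : H) :
    G.η (ι (G.op ι d i j t v) * y) = G.C d ((i, ι v) ::ₘ (j, y) ::ₘ t) := by
  rw [h.ι_op d i j ht, G.η_opH]

theorem Fr.isOp (h : G.Fr ι) (d i j) {t : Ms H} (ht : G.PP t) :
    G.IsOp ι d i j t (G.op ι d i j t) := fun v y _ => h.η_op d i j ht v y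

theorem Fr.ext (h : G.Fr ι) {A B : End ℂ V}
    (e : ∀ v, ∀ y ∈ G.T 1 3, G.η (ι (A v) * y) = G.η (ι (B v) * y)) : A = B :=
  LinearMap.ext fun v => sub_eq_zero.1 (h.inj ((G.hr _ (h.mem _) (by
    rw [map_sub ι (A v), sub_mul, map_sub, ← map_sub ι,
      e v _ (G.cjT _ _ _ (h.mem _)), sub_self])).trans (map_zero ι).symm))

theorem Fr.eq_op (h : G.Fr ι) {d i j} {t : Ms H} (ht : G.PP t) {A : End ℂ V}
    (a : G.IsOp ι d i j t A) : A = G.op ι d i j t :=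
  h.ext fun v y hy => (a v y hy).trans (h.η_op d i j ht v y).symm

theorem Fr.fin (h : G.Fr ι) : FiniteDimensional ℂ V :=
  haveI : FiniteDimensional ℂ H := Module.Finite.of_surjective
    (Fintype.linearCombination ℂ G.f) fun x => ⟨fun a => G.η (x * G.e a), G.cas x⟩
  .of_injective ι h.inj

theorem alg_mono {S S' : Set (R →₀ ℕ)} (h : S ⊆ S') : G.alg ι S ≤ G.alg ι S' :=
  Algebra.adjoin_mono fun _ ⟨d, a, b⟩ => ⟨d, h a, b⟩

theorem Fr.op_mem (h : G.Fr ι) {S : Set (R →₀ ℕ)} {d} (hd : d ∈ S) {t : Ms H} (ht : G.PP t)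
    (hp : Prim t) : G.op ι d 0 0 t ∈ G.alg ι S :=
  Algebra.subset_adjoin ⟨d, hd, t, ht, hp, h.isOp d 0 0 ht⟩

variable (G)

/-- The sum over the nodes that separate `s₁` from `s₂`. -/
noncomputable def sp (s₁ s₂ : Ms H) (d : R →₀ ℕ) (t : Ms H) : ℂ :=
  cv (fun d₁ t₁ d₂ t₂ => ∑ a, G.C d₁ ((0, G.e a) ::ₘ (s₁ + t₁)) *
    G.C d₂ ((0, G.f a) ::ₘ (s₂ + t₂))) d t

theorem sp_cons (s₁ s₂ d z t) :
    G.sp s₁ s₂ d (z ::ₘ t) = G.sp (z ::ₘ s₁) s₂ d t + G.sp s₁ (z ::ₘ s₂) d t := by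
  simp only [sp, cv_cons, add_cons, cons_add]

theorem sp_eq (s₁ s₂ d t) : G.sp s₁ s₂ d t = cv (fun d₁ t₁ d₂ t₂ =>
    G.C d₂ ((0, G.vec fun e => G.C d₁ ((0, e) ::ₘ (s₁ + t₁))) ::ₘ (s₂ + t₂))) d t :=
  cv_congr fun d₁ t₁ d₂ t₂ _ _ => by
    rw [← G.isCas.sum (G.lin d₂ 0 _)]
    simp only [G.η_vec (G.lin d₁ 0 _)]

theorem sp_swap (s₁ s₂ d t) : G.sp s₁ s₂ d t = G.sp s₂ s₁ d t := by
  rw [sp_eq, sp, ← cv_swap]
  refine cv_congr fun d₁ t₁ d₂ t₂ _ _ => ?_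
  rw [← G.isCas.symm.sum (G.lin d₁ 0 _)]
  simp only [G.η_vec (G.lin d₂ 0 _)]
  exact Finset.sum_congr rfl fun _ _ => mul_comm _ _

/-- The topological recursion relation. -/
theorem trr3 (d i x) (b c : ℕ × H) (t) :
    G.C d ((i + 1, x) ::ₘ b ::ₘ c ::ₘ t) = G.sp {(i, x)} {b, c} d t := by
  have r : ∀ (a b : ℕ × H) t, G.C d ((a.1 + 1, a.2) ::ₘ b ::ₘ t) +
      G.C d (a ::ₘ (b.1 + 1, b.2) ::ₘ t) = G.sp {a} {b} d t := fun a b t => G.trr d _ _ _ _ t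
  have h1 := r (i, x) b (c ::ₘ t)
  have h2 := r (i, x) c (b ::ₘ t)
  have h3 := r b c ((i, x) ::ₘ t)
  rw [sp_cons] at h1 h2 h3
  rw [G.sp_swap (c ::ₘ _)] at h1
  simp only [insert_eq_cons, ← cons_zero, cons_swap _ (i, x), cons_swap c b,
    cons_swap b (c.1 + 1, _)] at h1 h2 h3 ⊢
  linear_combination (h1 + h2 - h3) / 2

/-- WDVV. -/
theorem wdvv (d) (a b c w : ℕ × H) (t) : G.sp {w, a} {b, c} d t = G.sp {c, a} {b, w} d t := by
  have h1 := G.trr3 d a.1 a.2 b c (w ::ₘ t)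
  have h2 := G.trr3 d a.1 a.2 b w (c ::ₘ t)
  rw [cons_swap w, h1, sp_cons, sp_cons] at h2
  simp only [insert_eq_cons, ← cons_zero, cons_swap w, cons_swap c b] at h2 ⊢
  exact add_right_cancel h2

variable {G}

theorem Fr.η_cv (h : G.Fr ι) (i j) {s₁ s₂ t : Ms H} (h₁ : G.PP s₁) (h₂ : G.PP s₂) (ht : G.PP t) (d)
    (v : V) (y : H) : G.η (ι (cv (fun d₁ t₁ d₂ t₂ =>
      G.op ι d₂ 0 j (s₂ + t₂) * G.op ι d₁ i 0 (s₁ + t₁)) d t v) * y) =
      G.sp ((i, ι v) ::ₘ s₁) ((j, y) ::ₘ s₂) d t := by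
  refine (map_cv (G.η ∘ₗ LinearMap.mulRight ℂ y ∘ₗ ι ∘ₗ LinearMap.applyₗ v) _ d t).trans ?_
  rw [sp_eq]
  refine cv_congr fun d₁ t₁ d₂ t₂ _ e => ?_
  refine (h.η_op d₂ 0 j (h₂.add (ht.le (e ▸ le_add_left _ _))) _ y).trans ?_
  rw [h.ι_op d₁ i 0 (h₁.add (ht.le (e ▸ le_add_right _ _))), cons_add, cons_add]
  simp only [cons_swap _ (i, ι v)]
  rfl

end Gw

end Vale.Agent.P287Q.Pcs
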