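import Vale.Agent.P287Q.Lz.Pk

/-! The abstract package of genus zero invariants of a fourfold without holomorphic two-forms. -/

namespace Vale.Agent.P287Q.Pcs

open Lz Module

/-- `C d t` are the connected genus zero invariants of degree `d` with insertions `t`. -/
structure Gw (H R : Type) [CommRing H] [Algebra ℂ H] [Fintype R] [DecidableEq R] where
  /-- index set of the Casimir element -/
  A : Type
  [fA : Fintype A]
  /-- the Casimir element -/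
  e : A → H
  /-- the Casimir element -/
  f : A → H
  /-- the integral -/
  η : H →ₗ[ℂ] ℂ
  /-- the invariants -/
  C : (R →₀ ℕ) → Ms H → ℂ
  /-- the Hodge types -/
  T : ℤ → ℤ → Submodule ℂ H
  /-- the hyperplane classes -/
  L : R → H
  /-- the first Chern class -/
  c : R → ℤ
  /-- conjugation -/
  cj : H →ₛₗ[starRingEnd ℂ] H
  cas : ∀ x, ∑ a, η (x * e a) • f a = x
  top : ⨆ i : ℤ × ℤ, T i.1 i.2 = ⊤
  one : 1 ∈ T 0 0
  mul : ∀ p q p' q', ∀ x ∈ T p q, ∀ y ∈ T p' q', x * y ∈ T (p + p') (q + q')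
  out : ∀ p q, p < 0 ∨ q < 0 ∨ 4 < p ∨ 4 < q → T p q = ⊥
  t20 : T 2 0 = ⊥
  t42 : T 4 2 = ⊥
  t00 : ∀ x ∈ T 0 0, ∃ c : ℂ, x = c • 1
  ηT : ∀ p q, ∀ x ∈ T p q, η x ≠ 0 → p = 4 ∧ q = 4
  LT : ∀ r, L r ∈ T 1 1
  cjT : ∀ p q, ∀ x ∈ T p q, cj x ∈ T q p
  cj_cj : ∀ x, cj (cj x) = x
  cj_mul : ∀ x y, cj (x * y) = cj x * cj y
  cjη : ∀ x, η (cj x) = starRingEnd ℂ (η x)
  hr : ∀ x ∈ T 3 1, η (x * cj x) = 0 → x = 0
  lin : ∀ d i t, IsLinearMap ℂ fun x => C d ((i, x) ::ₘ t)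
  hdg : ∀ d (t : Multiset ((ℤ × ℤ) × ℕ × H)), (∀ x ∈ t, x.2.2 ∈ T x.1.1 x.1.2) →
    C d (t.map Prod.snd) ≠ 0 → (t.map fun x => x.1.1 - x.1.2).sum = 0
  dim : ∀ d (t : Multiset ((ℤ × ℤ) × ℕ × H)), (∀ x ∈ t, x.2.2 ∈ T x.1.1 x.1.2) →
    C d (t.map Prod.snd) ≠ 0 →
    (t.map fun x => 2 * (x.2.1 : ℤ) + x.1.1 + x.1.2 - 2).sum = 2 * (1 + ∑ r, c r * d r)
  div : ∀ r d (t : Ms H), (∀ z ∈ t, z.1 = 0 ∨ L r * z.2 = 0) → d ≠ 0 ∨ 3 ≤ t.card →
    C d ((0, L r) ::ₘ t) = d r * C d t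
  str : ∀ d (t : Ms H), (∀ z ∈ t, z.1 = 0) → d ≠ 0 ∨ 3 ≤ t.card → C d ((0, 1) ::ₘ t) = 0
  three : ∀ x y z, C 0 {(0, x), (0, y), (0, z)} = η (x * y * z)
  unst : ∀ t : Ms H, t.card ≤ 2 → C 0 t = 0
  trr : ∀ d i j x y t, C d ((i + 1, x) ::ₘ (j, y) ::ₘ t) + C d ((i, x) ::ₘ (j + 1, y) ::ₘ t) =
    cv (fun d₁ t₁ d₂ t₂ => ∑ a, C d₁ ((0, e a) ::ₘ (i, x) ::ₘ t₁) *
      C d₂ ((0, f a) ::ₘ (j, y) ::ₘ t₂)) d t
  real : ∀ d t, C d (t.map (Prod.map id cj)) = starRingEnd ℂ (C d t)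

attribute [instance] Gw.fA

variable {H R V : Type} [CommRing H] [Algebra ℂ H] [Fintype R] [DecidableEq R] [AddCommGroup V]
  [Module ℂ V]

/-- No cotangent line classes. -/
def Prim (t : Ms H) : Prop := ∀ z ∈ t, z.1 = 0

namespace Gw

variable (G : Gw H R) (ι : V →ₗ[ℂ] H)

/-- `ι` identifies `V` with the classes of type `(3, 1)`. -/
structure Fr : Prop where
  inj : Function.Injective ι
  rng : LinearMap.range ι = G.T 3 1

/-- The Hodge classes. -/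
def Tp : Submodule ℂ H := ⨆ p, G.T p p

/-- All insertions are Hodge classes. -/
def PP (t : Ms H) : Prop := ∀ z ∈ t, z.2 ∈ G.Tp

/-- `A` is the two point operator. -/
def IsOp (d : R →₀ ℕ) (i j : ℕ) (t : Ms H) (A : End ℂ V) : Prop :=
  ∀ x, ∀ y ∈ G.T 1 3, G.η (ι (A x) * y) = G.C d ((i, ι x) ::ₘ (j, y) ::ₘ t)

/-- The descendant operators with degree in `S`. -/
def ops (S : Set (R →₀ ℕ)) : Set (End ℂ V) :=
  {A | ∃ d ∈ S, ∃ i j t, G.PP t ∧ G.IsOp ι d i j t A}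

/-- The primary operators with degree in `S`. -/
def pops (S : Set (R →₀ ℕ)) : Set (End ℂ V) :=
  {A | ∃ d ∈ S, ∃ t, G.PP t ∧ Prim t ∧ G.IsOp ι d 0 0 t A}

/-- The algebra generated by the primary operators with degree in `S`. -/
def alg (S : Set (R →₀ ℕ)) : Subalgebra ℂ (End ℂ V) := Algebra.adjoin ℂ (G.pops ι S)

/-- The vector that represents a functional. -/
noncomputable def vec (φ : H → ℂ) : H := ∑ a, φ (G.e a) • G.f a

/-- The two point operator on all classes. -/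
noncomputable def opH (d : R →₀ ℕ) (i j : ℕ) (t : Ms H) : H →ₗ[ℂ] H where
  toFun x := G.vec fun y => G.C d ((i, x) ::ₘ (j, y) ::ₘ t)
  map_add' x x' := by
    simp only [vec, (G.lin d i _).map_add, add_smul, Finset.sum_add_distrib]
  map_smul' c x := by
    simp only [vec, (G.lin d i _).map_smul, smul_eq_mul, mul_smul, Finset.smul_sum, RingHom.id_apply]

/-- The two point operator. -/
noncomputable def op (d : R →₀ ℕ) (i j : ℕ) (t : Ms H) : End ℂ V :=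
  ι.leftInverse ∘ₗ G.opH d i j t ∘ₗ ι

/-- The pieces: projectors `π g` on which the algebra acts by the characters `χ g`. -/
structure Pieces {m : ℕ} (π : Fin m → End ℂ V) (χ : Fin m → G.alg ι Set.univ →ₐ[ℂ] ℂ) : Prop where
  coi : CompleteOrthogonalIdempotents π
  ne : ∀ g, π g ≠ 0
  mem : ∀ g, π g ∈ G.alg ι Set.univ
  inj : Function.Injective χ
  left : ∀ g (A : G.alg ι Set.univ), A.1 * π g = χ g A • π g
  right : ∀ g (A : G.alg ι Set.univ), π g * A.1 = χ g A • π g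
  rank : finrank ℂ (G.alg ι Set.univ) = m
  adj : ∀ g x y, G.η (ι (π g x) * G.cj (ι y)) = G.η (ι x * G.cj (ι (π g y)))

end Gw

end Vale.Agent.P287Q.Pcs
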