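import Vale.Agent.P287Q.Pcs.Tor
import Vale.Agent.P287Q.Pcs.Defs
import Vale.Agent.P287Q.G.Bas.Num
import Vale.Agent.P287Q.G.Bas.Rel

/-! The invariants of a presentation as functions of multisets of even insertions. -/

namespace Vale.Agent.P287Q.Prs

open Set Function P291Z P269 P269.Tq Lz

variable {n : ℕ} {V : Var n} (P : Prs V)

/-- The underlying classes. -/
def un (l : List (ℕ × Ch.Hev V.X)) : List (ℕ × H V.X) := l.map (Prod.map id Subtype.val)

/-- The invariants with even insertions. -/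
noncomputable def C (d : V.R →₀ ℕ) (t : Ms (Ch.Hev V.X)) : ℂ := P.gw (fun r => d r) (un t.toList)

theorem exOk : P.F.ExOk P.k P.F.exC :=
  (St.selC P.F P.k 1 univ 1 P.good P.big (subset_univ _) (one_mem _)).2

theorem sw (hW : St.Well) (d : P.R → ℤ) :
    LG.SW (parH _) fun l => P.F.cor P.k P.F.exC 0 P.F.cone P.F.cone d (-1) l [] [] :=
  (St.cor hW (St.rel St.dg) P.F 0 P.k _ P.nice P.cp P.big P.exOk Subset.rfl
    (fun _ h => h.1) d (-1)).one [] []

theorem pb_ev {x : H V.X} (h : x ∈ Ch.Hev V.X) : P.pb x ∈ Ch.Hev _ := (Ch.Hev.map P.q ⟨x, h⟩).2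

theorem gw'_perm (hW : St.Well) (d) {l l' : List (ℕ × H V.X)} (p : l.Perm l')
    (h : ∀ x ∈ l, x.2 ∈ Ch.Hev V.X) : P.gw' d l = P.gw' d l' := by
  have k : ∀ L, P.gw' d (L ++ l) = P.gw' d (L ++ l') := by
    induction p with
    | nil => exact fun _ => rfl
    | cons x _ ih =>
      intro L
      simpa using ih (fun y a => h y (List.mem_cons_of_mem _ a)) (L ++ [x])
    | swap x y l =>
      intro L
      simpa [gw'] using (P.sw hW d).ev (L.map (Prod.map id P.pb)) (Prod.map id P.pb y)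
        (Prod.map id P.pb x) (l.map (Prod.map id P.pb)) (parH_Hev (P.pb_ev (h x (by simp))))
    | trans p _ ih ih' => exact fun L => (ih h L).trans (ih' (fun y a => h y (p.symm.subset a)) L)
  exact k []

theorem un_ev {l : List (ℕ × Ch.Hev V.X)} : ∀ x ∈ un l, x.2 ∈ Ch.Hev V.X :=
  List.forall_mem_map.2 fun x _ => x.2.2

theorem C_coe (hW : St.Well) (d) (l : List (ℕ × Ch.Hev V.X)) :
    P.C d l = P.gw (fun r => d r) (un l) :=
  P.gw'_perm hW _ ((Multiset.coe_eq_coe.1 (Multiset.coe_toList _)).map _) un_ev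

theorem gw'_lin (hW : St.Well) (d i l) : IsLinearMap ℂ fun x => P.gw' d ((i, x) :: l) :=
  ⟨fun x y => by simpa [gw'] using (P.sw hW d).add [] i (P.pb x) (P.pb y) _,
    fun c x => by simpa [gw'] using (P.sw hW d).smul [] i c (P.pb x) _⟩

theorem C_cons (hW : St.Well) (d) (x : ℕ × Ch.Hev V.X) (l : List (ℕ × Ch.Hev V.X)) :
    P.C d (x ::ₘ l) = P.gw (fun r => d r) ((x.1, x.2.1) :: un l) := P.C_coe hW d (x :: l)

theorem C_lin (hW : St.Well) (d i t) : IsLinearMap ℂ fun x => P.C d ((i, x) ::ₘ t) := by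
  obtain ⟨l, rfl⟩ := Quot.exists_rep t
  simp only [Multiset.quot_mk_to_coe'', P.C_cons hW]
  exact ⟨fun x y => (P.gw'_lin hW _ i _).map_add _ _, fun c x => (P.gw'_lin hW _ i _).map_smul _ _⟩

/-- The invariants in terms of families of insertions. -/
theorem gw'_ofFn (d) {m : ℕ} (f : Fin m → ℕ × H V.X) : P.gw' d (.ofFn f) =
    P.F.corP P.k (fun m => m.Conn) 1 d (-1) fun s => ((f s).1, P.pb (f s).2) := by
  rw [gw', List.map_ofFn]
  exact P.F.cor_ofFnP P.k (fun _ _ m => m.Conn) 1 d (-1) _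

theorem C_ofFn (hW : St.Well) (d) {m : ℕ} (f : Fin m → ℕ × Ch.Hev V.X) : P.C d (List.ofFn f) =
    P.F.corP P.k (fun m => m.Conn) 1 (P.up fun r => d r) (-1) fun s => ((f s).1, P.pb (f s).2) := by
  rw [C_coe P hW, un, List.map_ofFn, gw, gw'_ofFn]
  rfl

end Vale.Agent.P287Q.Prs
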