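import Vale.Agent.P287Q.G.Fg.UcC
import Vale.Agent.P287Q.G.Qrr.QC

/-! Divisor, string and dimension equations for connected domains. -/

set_option linter.unusedSectionVars false
set_option linter.style.haveILetI false

namespace Vale.Agent.P269

open P291Z Set Function Topology Filter Cv Holo

section

variable {S Λ R J K ν κ ι : Type} [Fintype S] [Fintype Λ] [Fintype R] [Fintype J] [Fintype K]
  [Fintype ν] [Fintype κ] [Fintype ι] [DecidableEq ι] {ch : Ch ι J} {F : Fam S Λ R J K}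
  {e : K → ι → ℕ} {ℓ : R → ι → ℤ} {Z S₀ O : Set (ch.WF ν κ Λ)} {d n r : ℕ}

theorem Ch.GZ.eC_chr (h : Ch.GZ F ℓ Z) [Mono.FP F.actT F.cone] (χ : R → ℤ) :
    Ch.eC F Z (F.lc _ 0 χ) = Ch.oC F.toWt Z fun i => ∑ r, χ r * ℓ r i := by
  have := h.act
  rw [DilA.eC_eq h]
  refine h.eqh_unv.map_lcqO (h.cuts.orb_unv h.base h.orb) (Tq.orb _ _) (hm_chT 0 χ)
    (c' := fun s => ∏ i, s.2 i ^ ∑ r, χ r * ℓ r i) fun s hs => ?_
  simp only [chT, Pi.zero_apply, zpow_zero, Finset.prod_const_one, one_mul, ← Finset.prod_zpow,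
    ← zpow_mul, zpow_sum_ne ((Ch.isUnitU_iff.1 hs).2 _), mul_comm]
  exact Finset.prod_comm

theorem Ch.SDm.pshC_one (h : Ch.SDm F e ℓ S₀ O d n r) : Ch.pshC F e S₀ 1 = 0 := by
  have := h.gd.dom.isAct
  have := h.gdC.dom.isAct
  have := h.gd.dom.niceT
  have := h.gdC.dom.niceT
  have := h.gd.dom.orb.proper
  have := h.gdC.dom.orb.proper
  have := Orb.isQuo_sp.nice h.gd.dom.orb
  have := Orb.isQuo_sp.nice h.gdC.dom.orb
  rw [← map_one (H.mapA h.rC)]
  refine (h.pshC_res 1).trans ((congrArg h.vr ?_).trans (map_zero _))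
  refine Orb.Top.eq_zero ((h.gd.holOrb h.mf).top Orb.isQuo_sp) (k := 2 * (d + 1 : ℕ)) ?_ (by omega)
  rw [cap_one]
  exact ((h.gdC.holOrb (h.num.mf_unv h.ver h.mf)).ori Orb.isQuo_sp).deg.push _

theorem AM.Sol.not_un₀ [DecidableEq R] (hF : F.Good) {m : AM Λ R J ν κ} (hm : m.Sol F) {g : ℤ}
    {d : R → ℤ} (ht : m.Typ g d) (hc : m.Conn) (hn : Fintype.card (Ch.Mk ν κ) ≠ 0)
    (h : d ≠ 0 ∨ 3 < 2 * g + Fintype.card (Ch.Mk ν κ)) (q) : ¬m.Un F.θ q := fun a => by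
  rw [AM.Un, hc.cmp_eq, degOn_univ, ht.deg_ω] at a
  have b := ht.1 ▸ hc.gen_nonneg
  have c : d = 0 := funext fun i => (ht.2 i).symm.trans (degOn_univ.symm.trans
    (hm.degOn_zero hF (by rw [degOn_univ, ht.deg_bz]; omega) i))
  simp only [c, Pi.zero_apply, mul_zero, Finset.sum_const_zero] at a
  exact h.elim (· c) fun _ => by omega

theorem isDeg_ofFn₀ {X : Type} [TopologicalSpace X] {n : ℕ} {c : Fin n → H X} {m : Fin n → ℤ}
    (h : ∀ s, H.IsDeg (m s) (c s)) : H.IsDeg (∑ s, m s) (List.ofFn c).prod := by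
  induction n with
  | zero => exact H.isDeg_one
  | succ n ih =>
    rw [List.ofFn_succ, List.prod_cons, Fin.sum_univ_succ]
    exact (h 0).mul (ih fun s => h s.succ)

end

namespace Fam.One

variable {Λ R J K : Type} [Fintype Λ] [Fintype R] [Fintype J] [Fintype K] [DecidableEq R]
  {F : Fam Empty Λ R J K} {k n : ℕ} (h : F.One k) (hU : St.UcS) (hW : St.Well)
  (Θ : MvPolynomial (J × ℕ) ℂ) {d : R → ℤ} {j : ℤ} (f : Fin n → ℕ × H (F.X F.cone))
include h hU hW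

theorem forget_conn (hd : d ≠ 0 ∨ 0 < 2 * j + n) {c : H (F.X F.cone)} (hc : c ∈ Ch.Hev _) {z : ℂ}
    (hz : ∀ᶠ D in atTop, Ch.pshC F (F.tdeg (F.sch (Fin n ⊕ Fin 0) (Fin 0) k D (j + 1) d))
      (F.cy0 (Fin n ⊕ Fin 0) (Fin 0) k D (j + 1) d) (Ch.eC F _ c) =
        z • F.vir (Fin 0) k D (j + 1) d 0) :
    F.corP k (fun m => m.Conn) Θ d j (Fin.cons (0, c) f) = z * F.corP k (fun m => m.Conn) Θ d j f +
      ∑ s, if (f s).1 = 0 then 0 else
        F.corP k (fun m => m.Conn) Θ d j (update f s ((f s).1 - 1, c * (f s).2)) := by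
  obtain ⟨D, h1, h2, h3⟩ := ((hU F k Θ d j f 0 c _ _ h hc Fam.Sel.conn Fam.Sel.conn
    (fun m a _ b c => a.not_un₀ h.good b c (by simp) (hd.imp_right fun _ => by
      simp only [Fintype.card_sum, Fintype.card_fin, Fintype.card_prod]; omega) _)
    fun _ _ _ _ _ _ _ a _ _ _ => a.conn).and (hz.and (h.corP_ev hW Fam.Sel.conn Θ f))).exists
  rw [pow_zero, one_mul, if_pos rfl, h2, eq_sub_iff_add_eq] at h1
  rw [← h1, h3]
  simp only [Fam.intg, ev_eq, LinearMap.smul_apply, smul_eq_mul]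

/-- **The divisor equation.** -/
theorem div_conn (hd : d ≠ 0 ∨ 0 < 2 * j + n) (χ : R → ℤ) :
    F.corP k (fun m => m.Conn) Θ d j (Fin.cons (0, F.lc _ 0 χ) f) =
      (∑ r, χ r * d r : ℤ) * F.corP k (fun m => m.Conn) Θ d j f + ∑ s, if (f s).1 = 0 then 0 else
        F.corP k (fun m => m.Conn) Θ d j (update f s ((f s).1 - 1, F.lc _ 0 χ * (f s).2)) := by
  have := h.good.fp
  refine h.forget_conn hU hW Θ f hd (Wt.lc_mem _ _) ?_
  filter_upwards [h.nice.sdm (ν := Fin n ⊕ Fin 0) (κ := Fin 0) h.abs h.big (j + 1) d] with D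
    ⟨_, _, _, _, _, a⟩
  rw [a.gz.eC_chr, a.pshC_oC]
  exact congrArg (fun z : ℤ => (z : ℂ) • _) (Fam.chart_deg χ)

/-- **The string equation.** -/
theorem str_conn (hd : d ≠ 0 ∨ 0 < 2 * j + n) :
    F.corP k (fun m => m.Conn) Θ d j (Fin.cons (0, 1) f) = ∑ s, if (f s).1 = 0 then 0 else
      F.corP k (fun m => m.Conn) Θ d j (update f s ((f s).1 - 1, (f s).2)) := by
  have := h.forget_conn hU hW Θ f hd (one_mem _) (z := 0) (by
    filter_upwards [h.nice.sdm (ν := Fin n ⊕ Fin 0) (κ := Fin 0) h.abs h.big (j + 1) d] with D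
      ⟨_, _, _, _, _, a⟩
    rw [DilA.eC_eq a.gz, map_one, a.pshC_one, zero_smul])
  simpa using this

omit hU in
/-- **The dimension constraint.** -/
theorem dim_conn {K₀ : RD R} (hK : F.Reg K₀) {m : Fin n → ℤ} (hm : ∀ s, H.IsDeg (m s) (f s).2)
    (e : F.corP k (fun m => m.Conn) 1 d j f ≠ 0) : ∑ s, (2 * ((f s).1 : ℤ) + m s) =
      2 * (n + (3 + Fintype.card R - K₀.n) * j + ∑ r, K₀.γ r * d r) := by
  classical
  obtain ⟨D, e1, hD, c⟩ := ((h.corP_ev hW Fam.Sel.conn 1 f).and ((F.eventually_bigD k).and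
    (Fam.Sel.conn (F := F) (k := k) (g := j + 1) (d := d)
      (u := (0 : Fin n ⊕ Fin 0 → J → ℕ)) (κ := Fin 0)).2)).exists
  have hz := h.gz' (Fin n ⊕ Fin 0) (Fin 0) hD (j + 1) d 0
  have := h.compactSpace (ν := Fin n ⊕ Fin 0) (κ := Fin 0) (g := j + 1) (d := d) (u := 0) hD
  have := hz.nice
  obtain ⟨l₀, hl⟩ := h.pt
  have hB : ∀ l y : F.B, l = y := fun l y => Subtype.ext ((hl.le l.2).trans (hl.le y.2).symm)
  obtain ⟨_, φ, _, _, hs⟩ := h.nice.sh
  have : IsEmpty (Fin _) := ⟨fun i => (hs.free i).2.1 (h.abs.1 (hs.free i).1)⟩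
  have hv := h.good.vir_deg' (ν := Fin n ⊕ Fin 0) (Fin 0) hK (b := 0) (fun l => ⟨fun _ => l,
    .of_map_nhds (.of_forall fun _ => continuousAt_const)
    (.of_forall fun _ => continuous_subtype_val.continuousAt) analyticAt_const
    (injective_of_subsingleton _) fun _ hs => mem_of_superset univ_mem fun y _ =>
      hB l y ▸ (mem_of_mem_nhds hs :), rfl⟩) h.nice.pol hs h.big hD (j + 1) d 0
  rw [show (fun s => (0 : Fin n ⊕ Fin 0 → ℕ) s • (0 : J → ℕ)) = 0 from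
    funext fun _ => smul_zero _] at hv
  rw [e1, h.intg_sel hD hz c, map_one, Subalgebra.coe_one, one_mul] at e
  refine by_contra fun a => e (Loc.intg_deg hv (((hcls_isDeg (k := 0) (ind_eq_fn _ ▸ isDeg_fn _)).mul
    (isDeg_ofFn₀ fun s => (hm s).map _)).mul (Ch.Hev.prod_deg _ fun s _ =>
      Ch.Hev.pow_deg (k := 1) (hcls_isDeg (hz.psi_deg _)) _)) fun b => a ?_)
  simp only [vdim, Fintype.card_sum, Fintype.card_fin, Fintype.card_eq_zero, mul_one] at b
  rw [Finset.sum_add_distrib, ← Finset.mul_sum]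
  push_cast at b ⊢
  linear_combination b

end Fam.One

end Vale.Agent.P269
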