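import Vale.Agent.P287Q.Pcs.St
import Vale.Agent.P287Q.H3.Cor
import Vale.Agent.P287Q.H3.Brg
import Vale.Agent.P287Q.H3.Mf

/-! Invariants of unbalanced type vanish. -/

namespace Vale.Agent.P287Q

open Set Function P291Z P269

variable {n : ℕ} {V : Var n}

theorem Var.ty {p q : ℕ} {c : H V.X} (h : c ∈ V.Hg p q) :
    H3.Ty (Subtype.val : V.A → _) V.pt p q c :=
  haveI := isAct_scl V.π
  H3.ty_of_qt V.qm (V.Hg_eq p q ▸ h)

theorem Prs.ty (P : Prs V) {p q : ℕ} {c : H V.X} (h : c ∈ V.Hg p q) :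
    H3.Ty (Subtype.val : P.F.cone → _) (Quo.mk P.F.actT) p q (P.pb c) :=
  (Var.ty h).lift P.q (u := fun z => ⟨z.1.2 ∘ P.ι, P.eqv.maps z.2⟩)
    (Continuous.subtype_mk (continuous_pi fun j => (continuous_apply (P.ι j)).comp
      (continuous_snd.comp (continuous_subtype_val (p := (· ∈ P.F.cone))))) _)
    (fun _ => .of_an (Φ := fun z : (Empty → ℂ) × (P.J → ℂ) => z.2 ∘ P.ι)
      (analyticAt_pi_iff.2 fun j => analyticAt_pi_iff.1 analyticAt_snd (P.ι j)))
    fun z => P.eqv.qm_mk z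

theorem Pcs.hdg_of (h : H3.StHdg) : Pcs.HDG := fun _ _ P d l hl hn => by_contra fun e => hn <| by
  have := H3.cor_hdg h (e := P.F.exC) (A' := P.F.cone)
    ⟨P.nice, P.cp, P.big, P.exOk, Subset.rfl, fun _ h => h.1⟩ rfl (H3.ty_one H3.stZero) d (-1)
    (l.map (Prod.map id (Prod.map id P.pb))) []
    (List.forall_mem_map.2 fun x hx => P.ty (hl x hx)) (by simp) (by simpa [comp_def] using e)
  rw [List.map_map] at this
  rw [Prs.gw', List.map_map]
  exact this

end Vale.Agent.P287Q
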