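import Vale.Agent.P287Q.Pcs.St
import Vale.Agent.P287Q.Hb.L11

/-! The inputs from Hodge theory. -/

namespace Vale.Agent.P287Q.Pcs

theorem l11 : L11 := fun _ V => V.lc_Hg

theorem hrv : HRV := fun V => ⟨1, V.hr (by decide)⟩

end Vale.Agent.P287Q.Pcs
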