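import Vale.Agent.P287Q.Pcs.Nef
import Vale.Agent.P287Q.Pcs.Div
import Vale.Agent.P287Q.Pcs.St
import Vale.Agent.P287Q.G.Qrr.Three
import Vale.Agent.P287Q.G.Fg.Main
import Vale.Agent.P287Q.Re.Fin

/-! The numerical properties of the invariants of a presentation. -/

set_option linter.style.haveILetI false

namespace Vale.Agent.P287Q.Prs

open Set Function P291Z P269 P269.Tq Lz
open scoped ComplexConjugate

theorem exists_ofFn {α : Type} (t : Multiset α) : ∃ (m : ℕ) (f : Fin m → α), t = List.ofFn f := by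
  obtain ⟨l, rfl⟩ := Quot.exists_rep t
  exact ⟨_, l.get, congrArg _ l.ofFn_get.symm⟩

variable {n : ℕ} {V : Var n} (P : Prs V)

/-- The classes of the basic line bundles of the target. -/
noncomputable def Ln (r : P.R) : Ch.Hev V.X := ⟨V.lc (P.M r), Ch.mem_Hev (k := 1) (V.lc_deg _)⟩

theorem pb_Ln (r : P.R) : P.pb (P.Ln r).1 = P.F.lc P.F.cone 0 (Pi.single r 1) := by
  rw [lc_eq]
  exact congrArg (fun χ => P.pb (V.lc χ)) (funext fun s => by simp [Pi.single_apply])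

theorem Cn_cons_ofFn (d) {m : ℕ} (x : ℕ × Ch.Hev V.X) (f : Fin m → ℕ × Ch.Hev V.X) :
    P.Cn d (x ::ₘ List.ofFn f) = P.F.corP P.k (fun m => m.Conn) 1 (fun r => d r) (-1)
      (Fin.cons (x.1, P.pb x.2) fun s => ((f s).1, P.pb (f s).2)) := by
  rw [Multiset.cons_coe, ← List.ofFn_cons, P.Cn_ofFn St.well]
  exact congrArg _ (funext (Fin.cases rfl fun _ => rfl))

theorem ne_or {d : P.R →₀ ℕ} {m : ℕ} (h : d ≠ 0 ∨ 3 ≤ m) :
    (fun r => (d r : ℤ)) ≠ 0 ∨ 0 < 2 * (-1 : ℤ) + m :=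
  h.imp (fun a b => a (Finsupp.ext fun r => Nat.cast_eq_zero.1 (congrFun b r))) (by omega)

theorem cor_zero (d : P.R →₀ ℕ) {m : ℕ} (f : Fin m → ℕ × Ch.Hev V.X) (s : Fin m) (i : ℕ) :
    P.F.corP P.k (fun m => m.Conn) 1 (fun r => d r) (-1)
      (update (fun s => ((f s).1, P.pb (f s).2)) s (i, 0)) = 0 := by
  have a := P.Cn_zero St.well d (t := List.ofFn (update f s (i, 0))) (i := i)
    (List.mem_ofFn.2 ⟨s, update_self ..⟩)
  rw [P.Cn_ofFn St.well] at a
  refine .trans (congrArg _ (funext fun r => ?_)) a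
  by_cases e : r = s
  · simp [e]
  · simp [e]

theorem Cn_div (r d) (t : Ms (Ch.Hev V.X)) (h : ∀ z ∈ t, z.1 = 0 ∨ P.Ln r * z.2 = 0)
    (hd : d ≠ 0 ∨ 3 ≤ t.card) : P.Cn d ((0, P.Ln r) ::ₘ t) = d r * P.Cn d t := by
  obtain ⟨m, f, rfl⟩ := exists_ofFn t
  rw [Cn_cons_ofFn, P.pb_Ln, P.one.div_conn (St.ucS St.forget St.well) St.well _ _
    (P.ne_or (by simpa using hd)), P.Cn_ofFn St.well, Finset.sum_eq_zero (f := fun s => ite _ _ _),
    add_zero]
  · simp [Pi.single_apply]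
  intro s _
  rcases h (f s) (List.mem_ofFn.2 ⟨s, rfl⟩) with a | a
  · exact if_pos a
  · rw [← P.pb_Ln, ← map_mul, ← Subalgebra.coe_mul, a, Subalgebra.coe_zero, map_zero, cor_zero,
      ite_self]

theorem Cn_str (d) (t : Ms (Ch.Hev V.X)) (h : ∀ z ∈ t, z.1 = 0) (hd : d ≠ 0 ∨ 3 ≤ t.card) :
    P.Cn d ((0, 1) ::ₘ t) = 0 := by
  obtain ⟨m, f, rfl⟩ := exists_ofFn t
  rw [Cn_cons_ofFn, Subalgebra.coe_one, map_one,
    P.one.str_conn (St.ucS St.forget St.well) St.well _ _ (P.ne_or (by simpa using hd))]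
  exact Finset.sum_eq_zero fun s _ => if_pos (h (f s) (List.mem_ofFn.2 ⟨s, rfl⟩))

theorem Cn_three (x y z : Ch.Hev V.X) : P.Cn 0 {(0, x), (0, y), (0, z)} = V.int (x * y * z).1 := by
  have := P.good.fp
  refine (P.Cn_ofFn St.well 0 ![(0, x), (0, y), (0, z)]).trans ((St.threeT P.F P.k 1
    (fun j => P.F.lce _ (0, P.F.w j)) P.one (fun _ => Wt.lce_val _ _) _).trans ?_)
  rw [if_pos fun s => by fin_cases s <;> rfl, map_one, Subalgebra.coe_one, one_mul, ← P.int_pb,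
    Subalgebra.coe_mul, Subalgebra.coe_mul, map_mul, map_mul]
  rfl

theorem Cn_unst (t : Ms (Ch.Hev V.X)) (h : t.card ≤ 2) : P.Cn 0 t = 0 := by_contra fun a => by
  obtain ⟨m, -, b, c, e⟩ := supp a
  have := e.1
  have := b.pos c
  simp only [Fintype.card_sum, Fintype.card_fin, Fintype.card_prod, un, List.length_map,
    Multiset.length_toList, Finsupp.coe_zero, Pi.zero_apply, Nat.cast_zero, mul_zero,
    Finset.sum_const_zero] at this
  omega

theorem gw'_cj (d l) : P.gw' d (l.map (Prod.map id Mono.cj)) = conj (P.gw' d l) := by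
  have := St.real P.F 0 P.k _ P.nice P.cp P.big P.exOk Subset.rfl (fun _ h => h.1) d (-1)
    (l.map (Prod.map id P.pb)) [] []
  rw [Wt.exC_cj, List.map_map, List.map_congr_left (f := Prod.map id Mono.cj ∘ Prod.map id P.pb)
    (g := Prod.map id P.pb ∘ Prod.map id Mono.cj) fun x _ =>
      Prod.ext rfl (Mono.cj_map P.q x.2)] at this
  rw [gw', List.map_map]
  exact this

theorem Cn_cj (d) (c : Ch.Hev V.X → Ch.Hev V.X) (h : ∀ x, (c x).1 = Mono.cj x.1) (t) :
    P.Cn d (t.map (Prod.map id c)) = conj (P.Cn d t) := by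
  obtain ⟨l, rfl⟩ := Quot.exists_rep t
  rw [Multiset.quot_mk_to_coe'', Multiset.map_coe, P.Cn_coe St.well, P.Cn_coe St.well, ← gw'_cj, un,
    un, List.map_map, List.map_map]
  exact congrArg _ (List.map_congr_left fun x _ => Prod.ext rfl (h x.2))

theorem Cn_dim (d) (t : Multiset (ℤ × ℕ × Ch.Hev V.X)) (h : ∀ x ∈ t, H.IsDeg x.1 x.2.2.1)
    (a : P.Cn d (t.map Prod.snd) ≠ 0) :
    (t.map fun x => 2 * (x.2.1 : ℤ) + x.1 - 2).sum = 2 * (n - 3 + ∑ r, P.γ r * d r) := by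
  obtain ⟨m, f, rfl⟩ := exists_ofFn t
  rw [Multiset.map_coe, List.map_ofFn, P.Cn_ofFn St.well] at a
  have b := P.one.dim_conn St.well _ P.reg (m := fun s => (f s).1)
    (fun s => (h (f s) (List.mem_ofFn.2 ⟨s, rfl⟩)).map _) a
  rw [Multiset.map_coe, List.map_ofFn, Multiset.sum_coe, List.sum_ofFn]
  simp only [comp_apply, Finset.sum_sub_distrib, Finset.sum_const, Finset.card_univ,
    Fintype.card_fin] at b ⊢
  rw [b]
  push_cast
  ring

theorem Cn_hdg (hH : Pcs.HDG) (d) (t : Multiset ((ℤ × ℤ) × ℕ × Ch.Hev V.X))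
    (h : ∀ x ∈ t, x.2.2.1 ∈ V.T x.1.1 x.1.2) (a : P.Cn d (t.map Prod.snd) ≠ 0) :
    (t.map fun x => x.1.1 - x.1.2).sum = 0 := by
  have k : ∀ x ∈ t, 0 ≤ x.1.1 ∧ 0 ≤ x.1.2 := fun x hx => by_contra fun b => by
    have c := h x hx
    rw [Var.T, Hb.QT, Hb.HT, if_neg b, Submodule.mem_bot] at c
    exact a (P.Cn_zero St.well d (i := x.2.1) (Multiset.mem_map.2
      ⟨x, hx, Prod.ext rfl (Subtype.ext c)⟩))
  obtain ⟨l, rfl⟩ := Quot.exists_rep t
  have b := hH n V P (fun r => d r) (l.map fun x => ((x.1.1.toNat, x.1.2.toNat), x.2.1, x.2.2.1))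
    (List.forall_mem_map.2 fun x hx => by
      rw [V.Hg_eq, Int.toNat_of_nonneg (k x hx).1, Int.toNat_of_nonneg (k x hx).2]
      exact h x hx) (by
      rw [Multiset.quot_mk_to_coe'', Multiset.map_coe, P.Cn_coe St.well, un, List.map_map] at a
      rwa [List.map_map])
  have c := congrArg (Nat.cast (R := ℤ)) b
  simp only [Nat.cast_list_sum, List.map_map, comp_def] at c
  rw [List.map_congr_left (g := fun x => x.1.1) fun x hx => Int.toNat_of_nonneg (k x hx).1,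
    List.map_congr_left (l := l) (g := fun x => x.1.2) fun x hx =>
      Int.toNat_of_nonneg (k x hx).2] at c
  rw [Multiset.quot_mk_to_coe'', Multiset.sum_map_sub, Multiset.map_coe, Multiset.map_coe,
    Multiset.sum_coe, Multiset.sum_coe, c, sub_self]

end Vale.Agent.P287Q.Prs
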