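import Vale.Agent.P287Q.Trr.St
import Vale.Agent.P287Q.G.LG.HNP
import Vale.Agent.P287Q.G.Glu.NdG
import Vale.Agent.P287Q.G.Qrr.Fac

/-! The topological recursion relation for integrals over the moduli spaces. -/

set_option linter.unusedSectionVars false
set_option linter.style.haveILetI false

namespace Vale.Agent.P269

open Set Function Topology Filter Vale.Agent.P291Z Vale.Agent.P269.Ch

variable {S Λ R J K ν κ β : Type} [Fintype S] [Fintype Λ] [Fintype R] [Fintype J] [Fintype K]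
  [Fintype ν] [Fintype κ] [Fintype β] [DecidableEq R]

namespace TrA

section gen

variable {F : Fam S Λ R J K} {k D : ℕ} {g g' : ℤ} {d : R → ℤ}

theorem exists_isV (hF : F.Nice 0) (hA : F.Abs) (hk : F.Big k) (hD : F.BigD k D)
    (hg : g = g' + 1) : ∃ v, (F.kdL ν k D g g' d).IsV (F.acL ν k D g g' d) (F.SL ν k D g g' d)
      (F.OL ν k D g g' d) v := by
  obtain ⟨K₀, hR⟩ := hF.reg
  obtain ⟨b, hB⟩ := hF.sm
  obtain ⟨N, h⟩ := NdG.gh ν d hF.toGood hR hB hA hk hD hg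
  obtain ⟨U, hU⟩ := hF.toGood.ok' ν (Fin 0) hR hB hk hD g d
  have := h.nice
  exact ⟨_, (h.isV hU.pr hF.toGood (List.nodup_singleton ()) fun _ => List.mem_singleton.2 rfl).2.2⟩

theorem at_ev {u : ν → J → ℕ} {y : F.Mod κ k D g d u} {m : AM Λ R J ν κ} (h : F.At y m)
    (hz : GZ F ℓs (F.Zs κ k D g d u)) (n : Mk ν κ) {A : Set _}
    (hA : ∀ x ∈ F.Zs κ k D g d u, vl x n ∈ A) (hm : m.vl (m.p n) ∈ A) :
    (hz.eqh_vl n hA).toEqv.qm y = Quo.mk _ ⟨_, hm⟩ := by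
  obtain ⟨x, rfl, a⟩ := h
  obtain ⟨t, b, c⟩ := a.vl (W := F.toWt) x.2.1.1.2.1 Fam.chart_wd'
  exact (Quot.sound ⟨_, Prod.isUnit_iff.2 ⟨isUnit_one, b _⟩, c n⟩).symm

theorem cas_eq {ι : Type} [Fintype ι] [DecidableEq ι] {ch : Ch ι J} {ℓ : R → ι → ℤ}
    {Z : Set (ch.WF ν κ Λ)} (hz : GZ F ℓ Z) (a a' : β → H (F.X F.cone)) (n n' : Mk ν κ) :
    H.map (hz.eqh_vl2 n n').toEqv.qm (X3.csm F a a') =
      ∑ b, F.cl Z (.ev n _ (a b)) * F.cl Z (.ev n' _ (a' b)) := by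
  rw [X3.csm, map_sum]
  refine Finset.sum_congr rfl fun b _ => ?_
  rw [hz.cl_ev n fun _ e => vl_mem (hz.sol e) n, hz.cl_ev n' fun _ e => vl_mem (hz.sol e) n',
    map_mul, H.map_map, H.map_map]
  exact congrArg₂ (H.map · _ * H.map · _)
    (ContinuousMap.ext fun z => Quot.inductionOn z fun _ => rfl)
    (ContinuousMap.ext fun z => Quot.inductionOn z fun _ => rfl)

variable {Ψ : C(F.ML ν k D g g' d, F.Mod (Fin 0) k D g d (0 : ν → J → ℕ))}
  {Φ : C(F.ML ν k D g g' d, F.Mod (Fin 0) k D g' d (0 : ν ⊕ Unit × Bool → J → ℕ))}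
  (G : F.GNc Ψ Φ) (hF : F.Inv) (hk : F.Big k) (hD : F.BigD k D) (hg : g = g' + 1)
  (z : GZ F ℓs (F.Zs (Fin 0) k D g d (0 : ν → J → ℕ)))
  (z' : GZ F ℓs (F.Zs (Fin 0) k D g' d (0 : ν ⊕ Unit × Bool → J → ℕ)))
include G hF hk hD hg z z'

theorem map_ins1 (n : ν) (x : ℕ × H (F.X F.cone)) :
    H.map Φ (ins1 F _ (.inl (.inl n)) x) = H.map Ψ (ins1 F _ (.inl n) x) := by
  rw [ins1, ins1, map_mul, map_mul, map_pow, map_pow, G.psi, z.hcls_evF, z'.hcls_evF, H.map_map,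
    H.map_map]
  refine congrArg (_ * H.map · _) (ContinuousMap.ext fun y => ?_)
  obtain ⟨m, v, h, a, b⟩ := G.pt' hF hk hD hg y
  have c := (a.sol hF).2.2 (m.p (.inl n))
  exact (at_ev b z' (.inl (.inl n)) (z'.vl_cone _) c).trans (at_ev a z _ (z.vl_cone _) c).symm

end gen

variable {F : Fam Empty Λ R J K} {k D : ℕ} {d : R → ℤ}

/-- the relation for one chart -/
theorem cls (hT : St.Trr) (h : F.One k) (hD : F.BigD k D) {e e' : β → H (F.X F.cone)}
    (he : F.IsCas e e') {a b : ν} (hab : a ≠ b) (L : List (ν × ℕ × H (F.X F.cone))) :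
    Loc.intg (F.vir (Fin 0) k D 0 d 0) ((L.map fun x => ins1 F _ (.inl x.1) x.2).prod *
      (hcls (ind (F.sel fun m => m.Conn)) * (hcls (psiF (.inl a)) + hcls (psiF (.inl b))))) =
    ∑ s, Loc.intg (F.vir (Fin 0) k D (-1) d (0 : ν ⊕ Unit × Bool → J → ℕ))
      ((L.map fun x => ins1 F _ (.inl (.inl x.1)) x.2).prod *
        hcls (ind (F.sel (AM.Sep (.inl (.inl a)) (.inl (.inl b)) (Nd.mq () false)
          (Nd.mq () true)))) * (F.cl _ (.ev (Nd.mq () false) _ (e s)) *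
            F.cl _ (.ev (Nd.mq () true) _ (e' s)))) := by
  obtain ⟨Ψ, Φ, G⟩ := St.gnc (ν := ν) F k D 0 (-1) d h.nice h.abs h.cp h.big hD rfl
  obtain ⟨v, hv⟩ := exists_isV (ν := ν) (g := 0) (g' := -1) (d := d) h.nice h.abs h.big hD rfl
  have z := h.gz' ν (Fin 0) hD 0 d 0
  have z' := h.gz' (ν ⊕ Unit × Bool) (Fin 0) hD (-1) d 0
  haveI := z.nice
  haveI := z'.nice
  haveI := G.nice
  haveI := G.cpt
  haveI := h.compactSpace (ν := ν) (κ := Fin 0) (g := 0) (d := d) (u := 0) hD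
  haveI := h.compactSpace (ν := ν ⊕ Unit × Bool) (κ := Fin 0) (g := -1) (d := d) (u := 0) hD
  obtain ⟨t, ht⟩ := G.dg
  obtain ⟨m, c⟩ := G.co t ht
  obtain ⟨_, c'⟩ := ht.co
  have p : H.map Ψ (L.map fun x => ins1 F _ (.inl x.1) x.2).prod =
      H.map Φ (L.map fun x => ins1 F _ (.inl (.inl x.1)) x.2).prod := by
    rw [map_list_prod, map_list_prod, List.map_map, List.map_map]
    exact congrArg _ (List.map_congr_left fun x _ =>
      (map_ins1 G h.good.toInv h.big hD rfl z z' x.1 x.2).symm)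
  rw [← Loc.intg_cap, hT F k D d a b Ψ Φ h.nice h.abs h.big hD hab G v hv, Loc.intg_push,
    Loc.intg_cap, p, ← map_mul, ← Loc.intg_push, ← G.vir t ht v hv,
    Loc.push_gys_eq_cap (Φ.continuous.isClosedEmbedding G.inj) c.cocycle c.supp, Loc.intg_cap,
    ← map_sum, ← Finset.mul_sum, ← cas_eq z', ← (X3.isCas_iff_eq h.nice h.cp ht).1 he,
    H.map_hcls _ c'.cocycle, z'.evT_eq]

end TrA

end Vale.Agent.P269
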