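import Vale.Agent.P287Q.Pcs.TrrA
import Vale.Agent.P287Q.Pcs.Pr2
import Vale.Agent.P287Q.G.Bas.Rel
import Vale.Agent.P269.Pt.Bnd

/-! Invariants with labelled insertions and the splitting of two-component curves. -/

set_option linter.unusedSectionVars false
set_option linter.style.haveILetI false

namespace Vale.Agent.P269.TrA

open Set Function Topology Filter Vale.Agent.P291Z Vale.Agent.P269.Ch Cv

variable {Λ R J K ν ν' ν₁ ν₂ ι : Type} [Fintype Λ] [Fintype R] [Fintype J] [Fintype K]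
  [Fintype ν] [Fintype ν'] [Fintype ν₁] [Fintype ν₂] [Fintype ι] [DecidableEq ι] [DecidableEq R]
  {F : Fam Empty Λ R J K} {k : ℕ} {g : ℤ} {d d₁ d₂ : R → ℤ}

/-- the factors of labelled insertions -/
noncomputable def fl (L : List (ν × ℕ × H (F.X F.cone))) : List (Fac F.toWt ν (Fin 0)) :=
  (L.map fun x => List.replicate x.2.1 (.psi (.inl x.1)) ++ [.ev (.inl x.1) F.cone x.2.2]).flatten

/-- the class of labelled insertions -/
noncomputable def pl {ch : Ch ι J} (Z : Set (ch.WF ν (Fin 0) Λ))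
    (L : List (ν × ℕ × H (F.X F.cone))) : H (Quo (actF F.toWt) Z) :=
  (L.map fun x => ins1 F Z (.inl x.1) x.2).prod

variable (F k g d) in
/-- the invariants with labelled insertions -/
noncomputable def nI (P : AM Λ R J ν (Fin 0) → Prop) (L : List (ν × ℕ × H (F.X F.cone))) : ℂ :=
  F.inv k g d 0 P (.tw 1 :: fl L)

variable (F k d) in
/-- the connected invariants of genus zero -/
noncomputable def cc (l : List (ℕ × H (F.X F.cone))) : ℂ :=
  F.cor k F.exC 0 F.cone F.cone d (-1) l [] []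

theorem fl_re (a : ν → ν') (L : List (ν × ℕ × H (F.X F.cone))) :
    (fl L).map (Fac.re a id) = fl (L.map (Prod.map a id)) := by
  simp only [fl, List.map_flatten, List.map_map, comp_def, List.map_append, List.map_replicate]
  rfl

theorem fl_append (L L' : List (ν × ℕ × H (F.X F.cone))) : fl (L ++ L') = fl L ++ fl L' := by
  rw [fl, List.map_append, List.flatten_append]
  rfl

theorem fl_ok (L : List (ν × ℕ × H (F.X F.cone))) (u) : ∀ f ∈ fl L, f.Ok F u ∧ f.NoTw := by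
  simp only [fl, List.forall_mem_flatten, List.forall_mem_map, List.forall_mem_append,
    List.forall_mem_replicate, List.forall_mem_singleton]
  exact fun _ _ => ⟨.inr ⟨trivial, trivial⟩, fun _ h => h.1, trivial⟩

theorem prod_fl {ch : Ch ι J} (Z : Set (ch.WF ν (Fin 0) Λ)) (L : List (ν × ℕ × H (F.X F.cone))) :
    ((fl L).map (F.cl Z)).prod = pl Z L := by
  simp only [fl, pl, List.map_flatten, List.prod_flatten, List.map_map, comp_def, List.map_append,
    List.map_replicate, List.prod_append, List.prod_replicate, List.map_cons, List.map_nil,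
    List.prod_cons, List.prod_nil, mul_one]
  rfl

variable (h : F.One k) (hW : St.Well)
include h

section sel

variable {P : AM Λ R J ν (Fin 0) → Prop} (hP : ∀ m m', m.Same m' → P m → P m')
include hP

theorem iv (L : List (ν × ℕ × H (F.X F.cone))) : F.Iv 0 k g d 0 P (.tw 1 :: fl L) :=
  ⟨h.nice, h.cp, h.big, .of_same hP,
    List.forall_mem_cons.2 ⟨trivial, fun f a => (fl_ok L _ f a).1⟩, fun q => q.elim0⟩

theorem intg_eq {D : ℕ} (hD : F.BigD k D) (v) {fs : List (Fac F.toWt ν (Fin 0))}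
    (hf : ∀ f ∈ fs, f.Ok F fun n => (0 : ν → ℕ) n • 0) : F.intg (k := k) (D := D) (g := g) (d := d)
      (u := 0) v P fs = Loc.intg v (hcls (ind (F.sel P)) * (fs.map (F.cl _)).prod) :=
  haveI := h.compactSpace (ν := ν) (κ := Fin 0) (g := g) (d := d) (u := 0) hD
  Fam.intg_sel (h.gz' ν (Fin 0) hD g d 0) v (Fam.isClopen_sel_of_same hD hP)
    fun f a => h.nice.at_of_ok h.big hD (hf f a)

theorem intg_fl {D : ℕ} (hD : F.BigD k D) (v) (L : List (ν × ℕ × H (F.X F.cone))) :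
    F.intg (k := k) (D := D) (g := g) (d := d) (u := 0) v P (.tw 1 :: fl L) =
      Loc.intg v (hcls (ind (F.sel P)) * pl _ L) := by
  rw [intg_eq h hP hD v (iv (g := g) (d := d) h hP L).ok, List.map_cons, List.prod_cons,
    Fam.cl_tw_one, one_mul, prod_fl]

include hW in
theorem nI_ev (L : List (ν × ℕ × H (F.X F.cone))) : ∀ᶠ D in atTop, nI F k g d P L =
    Loc.intg (F.vir (Fin 0) k D g d 0) (hcls (ind (F.sel P)) * pl _ L) := by
  filter_upwards [(iv (g := g) (d := d) h hP L).well hW, F.eventually_bigD k] with D a hD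
  exact a.trans (intg_fl h hP hD _ L)

theorem nI_congr {L L' : List (ν × ℕ × H (F.X F.cone))} (e : ∀ D,
    GZ F ℓs (F.Zs (Fin 0) k D g d (0 : ν → J → ℕ)) → pl (F.Zs (Fin 0) k D g d 0) L = pl _ L') :
    nI F k g d P L = nI F k g d P L' :=
  Fam.inv_eq_inv ((F.eventually_bigD k).mono fun D hD => by
    rw [intg_fl h hP hD, intg_fl h hP hD, e D (h.gz' ν (Fin 0) hD g d 0)])

theorem nI_par (L : List (ν × ℕ × H (F.X F.cone))) :
    F.inv k g d 0 P (.tw 1 :: .par univ 1 :: fl L) = nI F k g d P L :=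
  Fam.inv_eq_inv ((F.eventually_bigD k).mono fun D hD => by
    rw [intg_fl h hP hD, intg_eq h hP hD _ (fs := .tw 1 :: .par univ 1 :: fl L)
      (List.forall_mem_cons.2 ⟨trivial, List.forall_mem_cons.2
      ⟨subset_univ _, fun f a => (fl_ok L _ f a).1⟩⟩), List.map_cons, List.map_cons, List.prod_cons,
      List.prod_cons, Fam.cl_tw_one, one_mul, prod_fl,
      (h.gz' ν (Fin 0) hD g d 0).cl_par (A := univ) fun _ _ => trivial, map_one, one_mul])

end sel

theorem nI_cc {L : List (ν × ℕ × H (F.X F.cone))} (hL : LG.Enum L) :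
    nI F k 0 d (fun m => m.Conn) L = cc F k d (L.map Prod.snd) := by
  obtain ⟨n, φ, v, rfl⟩ : ∃ (n : ℕ) (φ : Fin n ⊕ Fin 0 ≃ ν) (v : Fin n → ℕ × H (F.X F.cone)),
    L = .ofFn fun s => (φ (.inl s), v s) := ⟨_, _, _, hL.exists_equiv.choose_spec⟩
  have b := nI_par (ν := Fin n ⊕ Fin 0) (g := 0) (d := d) h (fun _ _ => AM.Same.conn)
    (.ofFn fun s => (.inl s, v s))
  have c := St.rel St.dg F 0 k 0 d φ (.refl _) 0 _ (fun m => m.Conn) _
    (iv h (fun _ _ => AM.Same.conn) (.ofFn fun s => (.inl s, v s))) fun _ => Iff.rfl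
  rw [List.map_cons, Equiv.coe_refl, fl_re, List.map_ofFn] at c
  rw [List.map_ofFn]
  refine (c.trans b.symm).trans (Eq.trans ?_ (F.cor_ofFnP k (fun _ _ m => m.Conn) 1 d (-1) v).symm)
  rw [fl, List.map_ofFn]
  rfl

include hW

theorem nI_sum {α : Type} {Q : α → AM Λ R J ν (Fin 0) → Prop}
    (hQ : ∀ a m m', m.Same m' → Q a m → Q a m') (hu : ∀ m a b, Q a m → Q b m → a = b)
    (L : List (ν × ℕ × H (F.X F.cone))) (s : Finset α) :
    nI F k g d (fun m => ∃ a ∈ s, Q a m) L = ∑ a ∈ s, nI F k g d (Q a) L := by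
  classical
  induction s using Finset.induction_on with
  | empty =>
    exact by_contra fun e => let ⟨_, _, _, _, _, a, _⟩ :=
      (St.supp F 0 k g d 0 _ _ h.nice h.big e).1; Finset.notMem_empty _ a
  | insert a s ha ih =>
    refine (St.add hW F 0 k g d 0 _ _ _ h.nice h.cp h.big (.of_same fun _ _ e ⟨a, b, c⟩ =>
      ⟨a, b, hQ _ _ _ e c⟩) (.of_same (hQ a)) (iv (g := g) (d := d) h (hQ a) L).ok
        fun q => q.elim0).trans ?_
    rw [Finset.sum_insert ha, ← ih]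
    refine congrArg₂ (nI F k g d · L + nI F k g d · L) (funext fun m => propext ?_)
      (funext fun m => propext ?_)
    · exact ⟨fun e => e.2, fun e => ⟨⟨a, Finset.mem_insert_self _ _, e⟩, e⟩⟩
    · exact ⟨fun ⟨⟨b, c, e⟩, f⟩ => ⟨b, (Finset.mem_insert.1 c).resolve_left fun i => f (i ▸ e), e⟩,
        fun ⟨b, c, e⟩ => ⟨⟨b, Finset.mem_insert_of_mem c, e⟩, fun f => ha (hu m _ _ e f ▸ c)⟩⟩

/-- **two components** -/
theorem nI_split {A B : List (ν × ℕ × H (F.X F.cone))} (hE : LG.Enum (A ++ B)) {M : Set ν}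
    (hM : ∀ n, n ∈ A.map Prod.fst ↔ n ∈ M) {a b e e' : ν} (ha : a ∈ M) (he : e ∈ M) (hb : b ∉ M)
    (he' : e' ∉ M) (hd : d₁ + d₂ = d) :
    nI F k (-1) d (fun m => m.CTyp (m.p (.inl e)) 0 d₁ (.inl '' M) ∧
      AM.Sep (.inl a) (.inl b) (.inl e) (.inl e') m) (A ++ B) =
      cc F k d₁ (A.map Prod.snd) * cc F k d₂ (B.map Prod.snd) := by
  classical
  obtain ⟨l, hl⟩ := h.pt
  obtain ⟨L₁, L₂, h₁, h₂, rfl, rfl⟩ := hE.split (Equiv.sumCompl (· ∈ M)) fun n =>
    (hM n).trans ⟨fun c => ⟨⟨n, c⟩, rfl⟩, fun ⟨c, e⟩ => e ▸ c.2⟩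
  have c := St.prC2 hW F 0 l k (-1) 0 0 d d₁ d₂ (Equiv.sumCompl (· ∈ M)) 0 ⟨e, he⟩ 1 _ _ _ (fl L₁)
    (fl L₂) h.nice hl h.big rfl hd Qrr.cop_one (fl_ok _ _) (fl_ok _ _)
    (Q := AM.Sep (.inl a) (.inl b) (.inl e) (.inl e')) (fun _ _ => AM.Same.sep)
    (fun _ _ => AM.Same.conn) fun _ _ _ _ _ s c => AM.sep_split s c ⟨a, ha⟩ ⟨e, he⟩ ⟨b, hb⟩ ⟨e', he'⟩
  have r : (range fun n => (.inl (Equiv.sumCompl (· ∈ M) (.inl n)) : Mk ν (Fin 0))) = .inl '' M :=
    Set.ext fun _ => ⟨fun ⟨n, e⟩ => ⟨n, n.2, e⟩, fun ⟨n, c, e⟩ => ⟨⟨n, c⟩, e⟩⟩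
  rw [Finset.sum_singleton, fl_re, fl_re, ← fl_append, r] at c
  rw [List.map_map, List.map_map]
  exact c.trans (congrArg₂ (· * ·) (nI_cc h h₁) (nI_cc h h₂))

end Vale.Agent.P269.TrA
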