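import Vale.Agent.P287Q.Pcs.TrrB
import Vale.Agent.P287Q.G.Glu.Cas
import Vale.Agent.P287Q.G.Coh.QM

/-! The topological recursion relation for the connected invariants of genus zero. -/

set_option linter.unusedSectionVars false
set_option linter.style.haveILetI false

namespace Vale.Agent.P269.TrA

open Set Function Topology Filter Vale.Agent.P291Z Vale.Agent.P269.Ch Cv

section comb

variable {α γ : Type} [Fintype α] [DecidableEq α]

/-- the marked points on the first component -/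
def MT (T : Finset α) : Set ((α ⊕ Bool) ⊕ Unit × Bool) :=
  {n | n.elim (Sum.elim (· ∈ T) (· = false)) (·.2 = false)}

/-- the insertions on one component -/
noncomputable def lT (f : α → γ) (c : Bool) (z x : γ) (T : Finset α) :
    List (((α ⊕ Bool) ⊕ Unit × Bool) × γ) :=
  (.inr ((), c), z) :: (.inl (.inr c), x) :: T.toList.map fun n => (.inl (.inl n), f n)

/-- all insertions -/
noncomputable def lA (f : α → γ) (x y : γ) : List ((α ⊕ Bool) × γ) :=
  (.inr false, x) :: (.inr true, y) :: Finset.univ.toList.map fun n => (.inl n, f n)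

theorem mem_lT (f : α → γ) (z x : γ) (T : Finset α) (n) :
    n ∈ (lT f false z x T).map Prod.fst ↔ n ∈ MT T := by
  rcases n with (n | _ | _) | ⟨_, _ | _⟩ <;> simp [lT, MT]

theorem enum_lT (f : α → γ) (z x z' x' : γ) (T : Finset α) :
    LG.Enum (lT f false z x T ++ lT f true z' x' Tᶜ) := by
  have i : Injective fun n : α => (.inl (.inl n) : (α ⊕ Bool) ⊕ Unit × Bool) :=
    Sum.inl_injective.comp Sum.inl_injective
  refine ⟨?_, fun n => ?_⟩
  · simp [lT, List.nodup_append, comp_def, (Finset.nodup_toList _).map i]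
    grind
  · rcases n with (n | _ | _) | ⟨_, _ | _⟩ <;> simp [lT, em]

theorem MT_inj : Injective (MT : Finset α → _) := fun _ _ e =>
  Finset.ext fun n => Set.ext_iff.1 e (.inl (.inl n))

theorem enum_lA (f : α → γ) (x y : γ) : LG.Enum (lA f x y) := by
  refine ⟨?_, fun n => ?_⟩
  · simp [lA, comp_def, (Finset.nodup_toList _).map Sum.inl_injective]
  · rcases n with n | _ | _ <;> simp [lA]

theorem snd_lT (f : α → γ) (c : Bool) (z x : γ) (T : Finset α) :
    (lT f c z x T).map Prod.snd = z :: x :: T.toList.map f := by simp [lT, comp_def]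

theorem snd_lA (f : α → γ) (x y : γ) :
    (lA f x y).map Prod.snd = x :: y :: Finset.univ.toList.map f := by simp [lA, comp_def]

theorem cas_alg {V ι A : Type} [AddCommGroup V] [Module ℂ V] {p : Fock.Par ℂ V} [Fintype ι]
    [Fintype A] (fr : Fock.Frame p ι) {e f : A → V} (he : ∀ a, p.σ (e a) = e a)
    (cas : ∀ x, p.σ x = x → ∑ a, fr.η x (e a) • f a = x) {φ ψ : V → ℂ} (hφ : IsLinearMap ℂ φ)
    (hψ : IsLinearMap ℂ ψ) (ho : ∀ z, p.σ z = -z → ψ z = 0) :
    ∑ s, φ (fr.e s) * ψ (fr.f s) = ∑ a, φ (e a) * ψ (f a) := by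
  have k : ∀ s, ψ (fr.f s) = ∑ a, fr.η (fr.f s) (e a) * ψ (f a) := fun s => by
    have c := fr.hf s
    rcases neg_one_pow_eq_or ℂ (fr.π s) with b | b <;> rw [b] at c
    · rw [one_smul] at c
      exact (congrArg ψ (cas _ c).symm).trans ((map_sum (hψ.mk' ψ) _ _).trans
        (Finset.sum_congr rfl fun a _ => hψ.map_smul _ _))
    · rw [neg_one_smul] at c
      refine (ho _ c).trans (Finset.sum_eq_zero fun a _ => mul_eq_zero_of_left ?_ _).symm
      have := LinearMap.congr_fun (Fock.SymB.comp_σ fr.sym (fr.f s)) (e a)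
      rw [LinearMap.comp_apply, he, c, map_neg, LinearMap.neg_apply] at this
      exact self_eq_neg.1 this
  simp only [k, Finset.mul_sum]
  rw [Finset.sum_comm]
  refine Finset.sum_congr rfl fun a _ => ?_
  conv_rhs => rw [← fr.left (e a)]
  rw [show φ _ = _ from map_sum (hφ.mk' φ) _ _, Finset.sum_mul]
  exact Finset.sum_congr rfl fun s _ => by
    rw [map_smul, IsLinearMap.mk'_apply, smul_eq_mul]; ring

end comb

variable {Λ R J K α β : Type} [Fintype Λ] [Fintype R] [Fintype J] [Fintype K] [Fintype α]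
  [DecidableEq α] [Fintype β] [DecidableEq R] {F : Fam Empty Λ R J K} {k : ℕ} {d : R → ℤ}

theorem pl_ev {ι ν : Type} [Fintype ι] [DecidableEq ι] [Fintype ν] {ch : Ch ι J} {ℓ : R → ι → ℤ}
    {Z : Set (ch.WF ν (Fin 0) Λ)} (z : GZ F ℓ Z) {f : α → ℕ × H (F.X F.cone)}
    (hf : ∀ n, (f n).2 ∈ Hev _) (a : α → ν) (T : Finset α) :
    pl Z (T.toList.map fun n => (a n, f n)) =
      (∏ n ∈ T, (⟨_, z.ins1_mem (.inl (a n)) (f n).1 (hf n)⟩ : Hev _)).1 := by
  rw [← Finset.prod_map_toList, pl, List.map_map]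
  rw [SubmonoidClass.coe_list_prod, List.map_map]
  rfl

theorem pl_cons {ι ν : Type} [Fintype ι] [DecidableEq ι] [Fintype ν] {ch : Ch ι J}
    (Z : Set (ch.WF ν (Fin 0) Λ)) (x : ν × ℕ × H (F.X F.cone)) (L) :
    pl Z (x :: L) = ins1 F Z (.inl x.1) x.2 * pl Z L := List.prod_cons

theorem pl_append {ι ν : Type} [Fintype ι] [DecidableEq ι] [Fintype ν] {ch : Ch ι J}
    (Z : Set (ch.WF ν (Fin 0) Λ)) (L L' : List (ν × ℕ × H (F.X F.cone))) :
    pl Z (L ++ L') = pl Z L * pl Z L' := by rw [pl, List.map_append, List.prod_append]; rfl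

theorem alg_psi {X : Type} [TopologicalSpace X] (I p q a b r : Hev X) (i j : ℕ) :
    I.1 * (p.1 ^ (i + 1) * a * (q.1 ^ j * b * r)) + I * (p.1 ^ i * a * (q.1 ^ (j + 1) * b * r)) =
      p.1 ^ i * a * (q.1 ^ j * b * r) * (I * (p + q)) :=
  congrArg Subtype.val (by ring : I * (p ^ (i + 1) * a * (q ^ j * b * r)) +
    I * (p ^ i * a * (q ^ (j + 1) * b * r)) = p ^ i * a * (q ^ j * b * r) * (I * (p + q)))

theorem pl_psi {ι : Type} [Fintype ι] [DecidableEq ι] {ch : Ch ι J} {ℓ : R → ι → ℤ}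
    {Z : Set (ch.WF (α ⊕ Bool) (Fin 0) Λ)} (z : GZ F ℓ Z) {f : α → ℕ × H (F.X F.cone)}
    (hf : ∀ n, (f n).2 ∈ Hev _) {x y} (hx : x ∈ Hev _) (hy : y ∈ Hev _) (i j : ℕ) (C) :
    hcls (ind C) * pl Z (lA f (i + 1, x) (j, y)) + hcls (ind C) * pl Z (lA f (i, x) (j + 1, y)) =
      pl Z (lA f (i, x) (j, y)) * (hcls (ind C) *
        (hcls (psiF (.inl (.inr false))) + hcls (psiF (.inl (.inr true))))) := by
  have v := fun n c hc => z.hcls_evF n c ▸ map_mem_Hev (z.eqh_vl n (z.vl_cone n)).toEqv.qm hc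
  simp only [lA, pl_cons, pl_ev z hf]
  exact alg_psi ⟨_, Pr2.ind_mem C⟩ ⟨_, z.cl_psi_mem _⟩ ⟨_, z.cl_psi_mem _⟩ ⟨_, v _ x hx⟩
    ⟨_, v _ y hy⟩ _ i j

theorem pl_nd {ι : Type} [Fintype ι] [DecidableEq ι] {ch : Ch ι J} {ℓ : R → ι → ℤ}
    {Z : Set (ch.WF ((α ⊕ Bool) ⊕ Unit × Bool) (Fin 0) Λ)} (z : GZ F ℓ Z)
    {f : α → ℕ × H (F.X F.cone)} (hf : ∀ n, (f n).2 ∈ Hev _) {x y} (hx : x ∈ Hev _)
    (hy : y ∈ Hev _) (i j : ℕ) (C) (u v) :
    ((lA f (i, x) (j, y)).map fun x => ins1 F Z (.inl (.inl x.1)) x.2).prod * hcls (ind C) *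
      (F.cl Z (.ev (Nd.mq () false) _ u) * F.cl Z (.ev (Nd.mq () true) _ v)) = hcls (ind C) *
      pl Z ((.inr ((), false), 0, u) :: (.inr ((), true), 0, v) ::
        (lA f (i, x) (j, y)).map (Prod.map .inl id)) := by
  have m : pl Z ((lA f (i, x) (j, y)).map (Prod.map .inl id)) ∈ Hev _ := by
    simp only [lA, List.map_cons, List.map_map, pl_cons, comp_def, Prod.map, id, pl_ev z hf]
    exact mul_mem (z.ins1_mem _ i hx) (mul_mem (z.ins1_mem _ j hy) (Subtype.prop _))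
  rw [pl_cons, pl_cons, ← mul_assoc (ins1 _ _ _ _), ← Hev.commute m, ← mul_assoc (hcls _),
    Hev.commute (Pr2.ind_mem _), pl, List.map_map]
  simp only [ins1, pow_zero, one_mul]
  rfl

variable (h : F.One k) (hW : St.Well)
include h

theorem cc_odd {i : ℕ} {z : H (F.X F.cone)} (hz : (parH _).σ z = -z) {l : List (ℕ × H (F.X F.cone))}
    (hl : ∀ x ∈ l, x.2 ∈ Hev _) (a : IsLinearMap ℂ fun x => cc F k d ((i, x) :: l)) :
    cc F k d ((i, z) :: l) = 0 := by
  have c := St.par F 0 k _ Subset.rfl (fun _ a => a.1) h.nice h.cp h.big (h.exOk_conn 1) d (-1)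
    ((i, z) :: l) [] []
  rw [List.map_cons, List.map_congr_left (f := Prod.map id (parH _).σ) (g := id) fun x b =>
    Prod.ext rfl (Tq.parH_Hev (hl x b)),
    List.map_id, Prod.map_apply, hz] at c
  exact self_eq_neg.1 (c.symm.trans (a.map_neg z))

include hW

theorem cc_lin (i l) : IsLinearMap ℂ fun x => cc F k d ((i, x) :: l) :=
  have a := (St.cor hW (St.rel St.dg) F 0 k _ h.nice h.cp h.big (h.exOk_conn 1) Subset.rfl
    (fun _ h => h.1) d (-1)).one [] []
  ⟨fun x y => a.add [] i x y l, fun c x => a.smul [] i c x l⟩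

variable {f : α → ℕ × H (F.X F.cone)} (hf : ∀ n, (f n).2 ∈ Hev _) {x y : H (F.X F.cone)}
  (hx : x ∈ Hev _) (hy : y ∈ Hev _) (i j : ℕ)
include hf hx hy

variable (d) in
theorem two : ∃ A₀ : Finset (R → ℤ), ∀ A ⊇ A₀, ∀ z z', nI F k (-1) d
    (AM.Sep (.inl (.inl (.inr false))) (.inl (.inl (.inr true))) (Nd.mq () false) (Nd.mq () true))
    ((.inr ((), false), 0, z) :: (.inr ((), true), 0, z') ::
      (lA f (i, x) (j, y)).map (Prod.map .inl id)) =
    ∑ d₁ ∈ A, ∑ T : Finset α, cc F k d₁ ((0, z) :: (i, x) :: T.toList.map f) *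
      cc F k (d - d₁) ((0, z') :: (j, y) :: Tᶜ.toList.map f) := by
  refine ⟨((AM.finite_ctyp (ν := (α ⊕ Bool) ⊕ Unit × Bool) (κ := Fin 0) h.good (-1) d).image
    (·.2.1)).toFinset, fun A hA z z' => ?_⟩
  let Q : (R → ℤ) × Finset α → AM Λ R J ((α ⊕ Bool) ⊕ Unit × Bool) (Fin 0) → Prop := fun p m =>
    m.CTyp (m.p (.inl (.inr ((), false)))) 0 p.1 (.inl '' MT p.2) ∧
      AM.Sep (.inl (.inl (.inr false))) (.inl (.inl (.inr true))) (Nd.mq () false) (Nd.mq () true) m
  have hQ : ∀ p m m', m.Same m' → Q p m → Q p m' := fun _ _ _ e a => ⟨e.ctyp a.1, e.sep a.2⟩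
  rw [← Finset.sum_product']
  refine (Fam.inv_congr h.good.toInv (fun _ _ e => e.same.sep) (fun _ _ e ⟨p, a, b⟩ =>
    ⟨p, a, hQ _ _ _ e.same b⟩) (fun m a b c => ⟨fun s => ?_, fun ⟨_, _, s⟩ => s.2⟩) _).trans
      ((nI_sum h hW hQ (fun m p q a b => Prod.ext (a.1.unique b.1).2.1
        (MT_inj (Sum.inl_injective.image_injective (a.1.unique b.1).2.2))) _ _).trans
        (Finset.sum_congr rfl fun p _ => ?_))
  · classical
    obtain ⟨u, v⟩ := AM.sep_ctyp s c
    refine ⟨(_, Finset.univ.filter fun n => m.p (.inl (.inl (.inl n))) ∈ m.cmp (m.p (Nd.mq () false))),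
      Finset.mem_product.2 ⟨hA ((Finite.mem_toFinset _).2 ⟨(0, _, _), ⟨m, a, b, c, _, u⟩, rfl⟩),
        Finset.mem_univ _⟩, ⟨u.1, u.2.1, fun n => ?_⟩, s⟩
    rcases n with ((n | _ | _) | ⟨_, _ | _⟩) | q
    · simp [MT]
    · simpa [MT] using s.1
    · simpa [MT] using v
    · simpa [MT] using LC.mem_cmp _
    · simpa [MT] using s.2.2.1
    · exact q.1.elim0
  · rw [← snd_lT f false, ← snd_lT f true, ← nI_split h hW (enum_lT f _ _ _ _ p.2)
      (mem_lT f _ _ p.2) (a := .inl (.inr false)) (b := .inl (.inr true)) (e := .inr ((), false))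
      (e' := .inr ((), true)) rfl rfl Bool.noConfusion Bool.noConfusion (add_sub_cancel _ _)]
    refine nI_congr h (hQ p) fun D z => ?_
    simp only [lT, lA, List.map_cons, List.map_map, pl_append, pl_cons, comp_def, Prod.map, id]
    rw [pl_ev z hf, pl_ev z hf, pl_ev z hf, ← Finset.prod_mul_prod_compl p.2, mul_assoc]
    refine congrArg _ ?_
    rw [← mul_assoc (_ * _), Hev.commute (mul_mem (z.ins1_mem _ i hx) (Subtype.prop _)), mul_assoc]
    refine congrArg _ (congrArg Subtype.val (?_ : (⟨_, z.ins1_mem _ i hx⟩ *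
      (⟨_, z.ins1_mem _ j hy⟩ * (_ * _)) : Hev _) =
        ⟨_, z.ins1_mem _ i hx⟩ * _ * (⟨_, z.ins1_mem _ j hy⟩ * _)))
    ring

theorem one (hT : St.Trr) {e e' : β → H (F.X F.cone)} (he : F.IsCas e e') :
    cc F k d ((i + 1, x) :: (j, y) :: Finset.univ.toList.map f) +
      cc F k d ((i, x) :: (j + 1, y) :: Finset.univ.toList.map f) = ∑ s, nI F k (-1) d
    (AM.Sep (.inl (.inl (.inr false))) (.inl (.inl (.inr true))) (Nd.mq () false) (Nd.mq () true))
    ((.inr ((), false), 0, e s) :: (.inr ((), true), 0, e' s) ::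
      (lA f (i, x) (j, y)).map (Prod.map .inl id)) := by
  have a := fun L : List ((α ⊕ Bool) × _) =>
    nI_ev (g := 0) (d := d) (P := fun m => m.Conn) h hW (fun _ _ => AM.Same.conn) L
  have c := fun L : List (((α ⊕ Bool) ⊕ Unit × Bool) × _) => nI_ev (g := -1) (d := d) h hW
    (P := AM.Sep (.inl (.inl (.inr false))) (.inl (.inl (.inr true))) (Nd.mq () false)
      (Nd.mq () true)) (fun _ _ => AM.Same.sep) L
  obtain ⟨D, ⟨⟨a, b⟩, c⟩, hD⟩ := ((((a (lA f (i + 1, x) (j, y))).and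
    (a (lA f (i, x) (j + 1, y)))).and (eventually_all.2 fun s => c ((.inr ((), false), 0, e s) ::
      (.inr ((), true), 0, e' s) :: (lA f (i, x) (j, y)).map (Prod.map .inl id)))).and
    (F.eventually_bigD k)).exists
  have z : GZ F ℓs (_ ∩ _) := h.gz' (α ⊕ Bool) (Fin 0) hD 0 d 0
  have z' : GZ F ℓs (_ ∩ _) := h.gz' ((α ⊕ Bool) ⊕ Unit × Bool) (Fin 0) hD (-1) d 0
  rw [← snd_lA, ← snd_lA, ← nI_cc h (enum_lA ..), ← nI_cc h (enum_lA ..), a, b, ← map_add,
    pl_psi z hf hx hy, pl, cls (ν := α ⊕ Bool) hT h hD he (by simp)]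
  exact Finset.sum_congr rfl fun s _ => by rw [c, pl_nd z' hf hx hy]

/-- **The topological recursion relation.** -/
theorem trr (hT : St.Trr) {R' : Type} [DecidableEq R'] {u : (R' →₀ ℕ) → R → ℤ} (hu : Injective u)
    (ha : ∀ a b, u (a + b) = u a + u b) (hr : ∀ d l, cc F k d l ≠ 0 → d ∈ range u)
    {e e' : β → H (F.X F.cone)} (he : ∀ s, e s ∈ Hev _)
    (cas : ∀ x ∈ Hev _, ∑ s, F.intX _ (x * e s) • e' s = x) (D : R' →₀ ℕ) :
    cc F k (u D) ((i + 1, x) :: (j, y) :: Finset.univ.toList.map f) +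
      cc F k (u D) ((i, x) :: (j + 1, y) :: Finset.univ.toList.map f) =
    ∑ p ∈ Finset.HasAntidiagonal.antidiagonal D, ∑ T : Finset α, ∑ s,
      cc F k (u p.1) ((0, e s) :: (i, x) :: T.toList.map f) *
        cc F k (u p.2) ((0, e' s) :: (j, y) :: Tᶜ.toList.map f) := by
  classical
  haveI := h.good.compact h.cp
  haveI := h.good.nice
  obtain ⟨n, q⟩ := h.nice.qm
  obtain ⟨l, hl⟩ := h.pt
  have c := Fam.isCoh q
  obtain ⟨A₀, hA⟩ := two (u D) h hW hf hx hy i j
  rw [one h hW hf hx hy i j hT (St.cas F l _ _ h.nice hl c), Finset.sum_congr rfl fun s _ =>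
    hA (A₀ ∪ (Finset.HasAntidiagonal.antidiagonal D).image fun p => u p.1) Finset.subset_union_left _ _,
    Finset.sum_comm, ← Finset.sum_subset Finset.subset_union_right, Finset.sum_image fun p a q b w =>
      Prod.ext (hu w) (add_left_cancel ((Finset.HasAntidiagonal.mem_antidiagonal.1 a).trans
        ((Finset.HasAntidiagonal.mem_antidiagonal.1 b).symm.trans (congrArg (· + _) (hu w).symm))))]
  · refine Finset.sum_congr rfl fun p a => Finset.sum_comm.trans (Finset.sum_congr rfl fun T _ => ?_)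
    rw [← Finset.HasAntidiagonal.mem_antidiagonal.1 a, ha, add_sub_cancel_left]
    refine cas_alg q.ps.coh.fr (fun s => Tq.parH_Hev (he s)) (fun w b => ?_) (cc_lin h hW _ _)
      (cc_lin h hW _ _) fun w b => cc_odd h b (List.forall_mem_cons.2 ⟨hy,
        List.forall_mem_map.2 fun n _ => hf n⟩) (cc_lin h hW _ _)
    simp only [c.η]
    exact cas w (X3.hev_of_par b)
  · refine fun d₁ _ b => Finset.sum_eq_zero fun s _ => Finset.sum_eq_zero fun T _ =>
      by_contra fun w => b ?_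
    obtain ⟨p, rfl⟩ := hr _ _ (left_ne_zero_of_mul w)
    obtain ⟨p', t⟩ := hr _ _ (right_ne_zero_of_mul w)
    exact Finset.mem_image.2 ⟨(p, p'), Finset.HasAntidiagonal.mem_antidiagonal.2
      (hu ((ha _ _).trans (by rw [t, add_sub_cancel]))), rfl⟩

end Vale.Agent.P269.TrA
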